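import Vale.Agent.P302.Defs

/-!
Upper bound for the LP from an explicit fractional packing with integer data.
-/

namespace Vale.Agent.P302

open Finset

/-- the instance with integer sizes `s` and capacity `L` -/
def inst (L : ℕ) (s : List ℕ) : List ℚ := s.map (fun a : ℕ => (a : ℚ) / (L : ℚ))

theorem inst_inj {L : ℕ} (hL : 0 < L) : Function.Injective (fun a : ℕ => (a : ℚ) / (L : ℚ)) := by
  intro x y h
  have hL' : (L : ℚ) ≠ 0 := by exact_mod_cast hL.ne'
  have h2 : (x : ℚ) / L = (y : ℚ) / L := h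
  rw [div_left_inj' hL'] at h2
  exact_mod_cast h2

theorem count_inst {L : ℕ} (hL : 0 < L) (s : List ℕ) (a : ℕ) :
    (inst L s).count ((a : ℚ) / (L : ℚ)) = s.count a :=
  List.count_map_of_injective s _ (inst_inj hL) a

theorem inst_sum (L : ℕ) (p : List ℕ) : (inst L p).sum = (p.sum : ℚ) / L := by
  unfold inst
  induction p with
  | nil => simp
  | cons a p ih =>
    rw [List.map_cons, List.sum_cons, List.sum_cons, ih]
    push_cast
    ring

/-- the configuration given by a list of sizes -/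
def conf (L : ℕ) (I : List ℚ) (p : List ℕ) : I.toFinset → ℕ := fun σ => (inst L p).count (σ : ℚ)

theorem conf_isConfig {L : ℕ} (hL : 0 < L) (I : List ℚ) (p : List ℕ) (hp : p.sum ≤ L) :
    IsConfig I (conf L I p) := by
  unfold IsConfig conf
  have h1 : ∑ σ : I.toFinset, (σ : ℚ) * ((inst L p).count (σ : ℚ) : ℚ) =
      ∑ σ ∈ I.toFinset, σ * ((inst L p).count σ : ℚ) :=
    Finset.sum_coe_sort I.toFinset (fun σ => σ * ((inst L p).count σ : ℚ))
  have h2 : ∑ σ ∈ I.toFinset, σ * ((inst L p).count σ : ℚ) ≤ (inst L p).sum := by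
    have hnn : ∀ σ ∈ inst L p, (0 : ℚ) ≤ σ := by
      intro σ hσ
      unfold inst at hσ
      rw [List.mem_map] at hσ
      obtain ⟨a, _, rfl⟩ := hσ
      positivity
    rw [Finset.sum_list_count (inst L p)]
    have h3 : ∑ σ ∈ I.toFinset, σ * ((inst L p).count σ : ℚ) =
        ∑ σ ∈ I.toFinset ∩ (inst L p).toFinset, σ * ((inst L p).count σ : ℚ) := by
      symm
      refine Finset.sum_subset Finset.inter_subset_left ?_
      intro σ h4 h5
      have h6 : σ ∉ inst L p := by
        intro h7
        exact h5 (Finset.mem_inter.2 ⟨h4, List.mem_toFinset.2 h7⟩)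
      rw [List.count_eq_zero_of_not_mem h6]
      simp
    rw [h3]
    have h4 : ∑ σ ∈ (inst L p).toFinset, (inst L p).count σ • σ =
        ∑ σ ∈ (inst L p).toFinset, σ * ((inst L p).count σ : ℚ) :=
      Finset.sum_congr rfl fun σ _ => by rw [nsmul_eq_mul, mul_comm]
    rw [h4]
    refine Finset.sum_le_sum_of_subset_of_nonneg Finset.inter_subset_right ?_
    intro σ h5 _
    exact mul_nonneg (hnn σ (List.mem_toFinset.1 h5)) (by positivity)
  rw [h1]
  refine h2.trans ?_
  rw [inst_sum, div_le_one (by exact_mod_cast hL)]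
  exact_mod_cast hp

/-- the fractional packing with weights `p.1 / D` on the configurations `p.2` -/
noncomputable def zof (L D : ℕ) (I : List ℚ) (ps : List (ℕ × List ℕ)) :
    (I.toFinset → ℕ) →₀ ℝ :=
  (ps.map (fun p => Finsupp.single (conf L I p.2) ((p.1 : ℝ) / (D : ℝ)))).sum

theorem zof_sum (L D : ℕ) (I : List ℚ) (ps : List (ℕ × List ℕ)) (h : (I.toFinset → ℕ) → ℝ) :
    (zof L D I ps).sum (fun c w => h c * w) =
      (ps.map (fun p => h (conf L I p.2) * ((p.1 : ℝ) / (D : ℝ)))).sum := by
  unfold zof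
  induction ps with
  | nil => simp
  | cons p ps ih =>
    rw [List.map_cons, List.sum_cons, List.map_cons, List.sum_cons,
      Finsupp.sum_add_index' (fun c => mul_zero _) (fun c a b => mul_add _ _ _), ih,
      Finsupp.sum_single_index (mul_zero _)]

theorem zof_nonneg (L D : ℕ) (I : List ℚ) (ps : List (ℕ × List ℕ)) (c : I.toFinset → ℕ) :
    0 ≤ zof L D I ps c := by
  unfold zof
  induction ps with
  | nil => simp
  | cons p ps ih =>
    rw [List.map_cons, List.sum_cons, Finsupp.add_apply]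
    refine add_nonneg ?_ ih
    rw [Finsupp.single_apply]
    split_ifs
    · positivity
    · exact le_rfl

theorem zof_support {L D : ℕ} (hL : 0 < L) (I : List ℚ) (ps : List (ℕ × List ℕ))
    (h1 : ∀ p ∈ ps, p.2.sum ≤ L) : ∀ c ∈ (zof L D I ps).support, IsConfig I c := by
  unfold zof
  induction ps with
  | nil => simp
  | cons p ps ih =>
    intro c hc
    rw [List.map_cons, List.sum_cons] at hc
    have h2 := Finsupp.support_add hc
    rw [Finset.mem_union] at h2
    rcases h2 with h2 | h2
    · have h3 := Finsupp.support_single_subset h2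
      rw [Finset.mem_singleton] at h3
      rw [h3]
      exact conf_isConfig hL I p.2 (h1 p (List.mem_cons_self))
    · exact ih (fun q hq => h1 q (List.mem_cons_of_mem _ hq)) c h2

theorem list_sum_cast (ps : List (ℕ × List ℕ)) (D : ℕ) (g : ℕ × List ℕ → ℕ) :
    (ps.map (fun p => (g p : ℝ) * ((p.1 : ℝ) / (D : ℝ)))).sum =
      (((ps.map (fun p => p.1 * g p)).sum : ℕ) : ℝ) / D := by
  induction ps with
  | nil => simp
  | cons p ps ih =>
    rw [List.map_cons, List.sum_cons, List.map_cons, List.sum_cons, ih]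
    push_cast
    ring

theorem LP_le {L D : ℕ} (hL : 0 < L) (hD : 0 < D) (s : List ℕ) (ps : List (ℕ × List ℕ))
    (h1 : ∀ p ∈ ps, p.2.sum ≤ L)
    (h2 : ∀ a ∈ s, D * s.count a ≤ (ps.map (fun p => p.1 * p.2.count a)).sum) :
    LP (inst L s) ≤ (((ps.map (fun p => p.1)).sum : ℕ) : ℝ) / D := by
  have hD' : (0 : ℝ) < D := by exact_mod_cast hD
  unfold LP
  refine csInf_le ⟨0, ?_⟩ ⟨zof L D (inst L s) ps, ⟨zof_nonneg _ _ _ _, zof_support hL _ _ h1, ?_⟩, ?_⟩
  · rintro v ⟨z, hz, rfl⟩
    exact Finsupp.sum_nonneg fun c _ => hz.1 c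
  · rintro ⟨σ, hσ⟩
    have hσ' := List.mem_toFinset.1 hσ
    unfold inst at hσ'
    rw [List.mem_map] at hσ'
    obtain ⟨a, ha, rfl⟩ := hσ'
    rw [zof_sum L D (inst L s) ps (fun c => ((c ⟨_, hσ⟩ : ℕ) : ℝ))]
    have h3 : ∀ p : ℕ × List ℕ, conf L (inst L s) p.2 ⟨(a : ℚ) / (L : ℚ), hσ⟩ = p.2.count a :=
      fun p => count_inst hL p.2 a
    have h4 : (ps.map (fun p => ((conf L (inst L s) p.2 ⟨(a : ℚ) / (L : ℚ), hσ⟩ : ℕ) : ℝ) *
        ((p.1 : ℝ) / (D : ℝ)))) =
        ps.map (fun p => ((p.2.count a : ℕ) : ℝ) * ((p.1 : ℝ) / (D : ℝ))) := by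
      refine List.map_congr_left fun p _ => ?_
      rw [h3]
    have h5 : (inst L s).count ((a : ℚ) / (L : ℚ)) = s.count a := count_inst hL s a
    change (((inst L s).count ((a : ℚ) / (L : ℚ)) : ℕ) : ℝ) ≤ _
    rw [h5, h4, list_sum_cast, le_div_iff₀ hD', mul_comm]
    exact_mod_cast h2 a ha
  · have h3 := zof_sum L D (inst L s) ps (fun _ => 1)
    simp only [one_mul] at h3
    rw [h3]
    have h4 := list_sum_cast ps D (fun _ => 1)
    simp only [Nat.cast_one, one_mul, mul_one] at h4
    exact h4.symm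

/-- lower bound for the number of bins -/
theorem lt_OPT (I : List ℚ) (hI : ∀ a ∈ I, a ≤ 1) {N : ℕ} (h : ¬ Packable I N) : N < OPT I := by
  have hne : {k | Packable I k}.Nonempty := by
    refine ⟨I.length, fun i => i, fun j => ?_⟩
    have : (univ.filter (fun i : Fin I.length => i = j)) = {j} := by ext; simp
    rw [this, Finset.sum_singleton]
    exact hI _ (List.get_mem _ _)
  have h1 : Packable I (OPT I) := Nat.sInf_mem hne
  by_contra hlt
  rw [not_lt] at hlt
  obtain ⟨f, hf⟩ := h1
  apply h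
  refine ⟨fun i => Fin.castLE hlt (f i), fun j => ?_⟩
  by_cases hj : (j : ℕ) < OPT I
  · have e : (univ.filter (fun i => Fin.castLE hlt (f i) = j)) =
        univ.filter (fun i => f i = ⟨j, hj⟩) := by
      ext i
      simp only [mem_filter, mem_univ, true_and]
      constructor
      · intro h2
        apply Fin.ext
        have h3 := congrArg Fin.val h2
        exact h3
      · intro h2; ext; rw [h2]; rfl
    rw [e]; exact hf _
  · have e : (univ.filter (fun i => Fin.castLE hlt (f i) = j)) = ∅ := by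
      ext i
      simp only [mem_filter, mem_univ, true_and, notMem_empty, iff_false]
      intro h2
      apply hj
      rw [← h2]
      exact (f i).2
    rw [e, Finset.sum_empty]
    norm_num

end Vale.Agent.P302
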