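import Vale.Agent.P302.Bounds

/-!
Non-packability from a kernel computation: depth first search over the bins with memory.

The items are pairs (size, weight) with superincreasing weights (every weight exceeds the sum of
the later ones), so that a sublist of the items is determined by its key, the sum of its weights.
For every `n` a binary tree `T n` of keys lists sublists which do not fit in `n` bins; each is
checked by running through all possibilities for the bin of its first item.
-/

namespace Vale.Agent.P302

/-- binary trees of keys -/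
inductive Tr
  | nil : Tr
  | node : Tr → ℕ → Tr → Tr

/-- look up -/
def Tr.mem : Tr → ℕ → Bool
  | .nil, _ => false
  | .node l x r, k => Nat.beq k x || (bif Nat.ble k x then l.mem k else r.mem k)

/-- all keys have property `p` -/
def Tr.all (p : ℕ → Bool) : Tr → Bool
  | .nil => true
  | .node l x r => l.all p && (p x && r.all p)

theorem Tr.all_mem {p : ℕ → Bool} {k : ℕ} : ∀ {T : Tr}, T.all p = true → T.mem k = true → p k = true
  | .nil, _, h => by simp [Tr.mem] at h
  | .node l x r, ha, hm => by
    rw [Tr.all, Bool.and_eq_true, Bool.and_eq_true] at ha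
    rw [Tr.mem, Bool.or_eq_true] at hm
    rcases hm with hm | hm
    · have : k = x := Nat.eq_of_beq_eq_true hm
      rw [this]; exact ha.2.1
    · cases hb : Nat.ble k x
      · rw [hb, cond_false] at hm
        exact Tr.all_mem ha.2.2 hm
      · rw [hb, cond_true] at hm
        exact Tr.all_mem ha.1 hm

/-- run through all sublists of the list which fit in the room `rem`; `vol` and `key` are the
total size and the key of the items left out so far -/
def fill (k : ℕ → Bool) (cap : ℕ) : List (ℕ × ℕ) → ℕ → ℕ → ℕ → Bool
  | [], _, _, key => k key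
  | (a, w) :: xs, rem, vol, key =>
    (Nat.ble a rem && fill k cap xs (rem - a) vol key) ||
      (Nat.ble (vol + a) cap && fill k cap xs rem (vol + a) (key + w))

/-- the sublist with given key -/
def sel : List (ℕ × ℕ) → ℕ → List (ℕ × ℕ)
  | [], _ => []
  | (a, w) :: xs, key => bif Nat.ble w key then (a, w) :: sel xs (key - w) else sel xs key

/-- the weights are superincreasing -/
def super : List (ℕ × ℕ) → Bool
  | [] => true
  | (_, w) :: xs => Nat.blt (xs.map Prod.snd).sum w && super xs

/-- the sublist `l` is refuted for `n + 1` bins by the table `T` for `n` bins -/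
def refute (L : ℕ) (T : Tr) (n : ℕ) : List (ℕ × ℕ) → Bool
  | [] => false
  | (a, _) :: xs => !(fill (fun k => !(T.mem k)) (n * L) xs (L - a) 0 0)

/-- check of the tables, for `Ts.length, …, 2, 1` bins -/
def checkTabs (L : ℕ) (items : List (ℕ × ℕ)) : List Tr → Bool
  | [] => true
  | [T] => T.all (fun _ => false)
  | T :: T' :: Ts => checkTabs L items (T' :: Ts) &&
      T.all (fun key => refute L T' (T' :: Ts).length (sel items key))

/-- the complete check -/
def check (L : ℕ) (items : List (ℕ × ℕ)) : List Tr → Bool
  | [] => false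
  | T :: Ts => super items && (checkTabs L items (T :: Ts) && refute L T (T :: Ts).length items)

/-! ### correctness -/

/-- splitting of a list -/
inductive Split : List (ℕ × ℕ) → List (ℕ × ℕ) → List (ℕ × ℕ) → Prop
  | nil : Split [] [] []
  | take {x l b r} : Split l b r → Split (x :: l) (x :: b) r
  | skip {x l b r} : Split l b r → Split (x :: l) b (x :: r)

theorem Split.filter (q : ℕ × ℕ → Bool) :
    ∀ l, Split l (l.filter q) (l.filter (fun p => !q p))
  | [] => Split.nil
  | x :: l => by
    cases h : q x
    · rw [List.filter_cons_of_neg (by simp [h]), List.filter_cons_of_pos (by simp [h])]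
      exact Split.skip (Split.filter q l)
    · rw [List.filter_cons_of_pos (by simp [h]), List.filter_cons_of_neg (by simp [h])]
      exact Split.take (Split.filter q l)

theorem Split.sum {l b r : List (ℕ × ℕ)} (h : Split l b r) :
    (l.map Prod.fst).sum = (b.map Prod.fst).sum + (r.map Prod.fst).sum := by
  induction h with
  | nil => rfl
  | take _ ih => simp only [List.map_cons, List.sum_cons, ih]; omega
  | skip _ ih => simp only [List.map_cons, List.sum_cons, ih]; omega

theorem Split.sublist {l b r : List (ℕ × ℕ)} (h : Split l b r) : r.Sublist l := by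
  induction h with
  | nil => exact List.Sublist.slnil
  | take _ ih => exact List.Sublist.cons _ ih
  | skip _ ih => exact List.Sublist.cons_cons _ ih

theorem fill_complete {k : ℕ → Bool} {cap : ℕ} {l b r : List (ℕ × ℕ)} (h : Split l b r) :
    ∀ {rem vol key : ℕ}, (b.map Prod.fst).sum ≤ rem → vol + (r.map Prod.fst).sum ≤ cap →
      k (key + (r.map Prod.snd).sum) = true → fill k cap l rem vol key = true := by
  induction h with
  | nil =>
    intro rem vol key _ _ h3
    simpa [fill] using h3
  | @take x l b r _ ih =>
    intro rem vol key h1 h2 h3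
    obtain ⟨a, w⟩ := x
    simp only [List.map_cons, List.sum_cons] at h1
    rw [fill, Bool.or_eq_true, Bool.and_eq_true]
    left
    exact ⟨by rw [Nat.ble_eq]; omega, ih (by omega) h2 h3⟩
  | @skip x l b r _ ih =>
    intro rem vol key h1 h2 h3
    obtain ⟨a, w⟩ := x
    simp only [List.map_cons, List.sum_cons] at h2 h3
    rw [fill, Bool.or_eq_true, Bool.and_eq_true (Nat.ble (vol + a) cap)]
    right
    refine ⟨by rw [Nat.ble_eq]; omega, ih h1 (by omega) ?_⟩
    rw [← h3]
    congr 1
    omega

theorem sel_eq : ∀ {l r : List (ℕ × ℕ)}, super l = true → r.Sublist l →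
    sel l (r.map Prod.snd).sum = r
  | [], r, _, h => by
    rw [List.sublist_nil] at h
    rw [h]; rfl
  | (a, w) :: l, r, hs, h => by
    rw [super, Bool.and_eq_true] at hs
    have hw : (l.map Prod.snd).sum < w := by
      have := hs.1
      simpa [Nat.blt] using this
    rw [List.sublist_cons_iff] at h
    rcases h with h | ⟨r', rfl, h⟩
    · have h1 : (r.map Prod.snd).sum ≤ (l.map Prod.snd).sum :=
        (h.map Prod.snd).sum_le_sum (fun _ _ => Nat.zero_le _)
      have h2 : Nat.ble w (r.map Prod.snd).sum = false := by
        rw [← Bool.not_eq_true, Nat.ble_eq]; omega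
      rw [sel, h2, cond_false]
      exact sel_eq hs.2 h
    · have h2 : Nat.ble w (((a, w) :: r').map Prod.snd).sum = true := by
        rw [Nat.ble_eq, List.map_cons, List.sum_cons]; exact Nat.le_add_right _ _
      rw [sel, h2, cond_true]
      have h3 : (((a, w) :: r').map Prod.snd).sum - w = (r'.map Prod.snd).sum := by
        rw [List.map_cons, List.sum_cons]; exact Nat.add_sub_cancel_left _ _
      rw [h3, sel_eq hs.2 h]

theorem super_sublist : ∀ {l r : List (ℕ × ℕ)}, super l = true → r.Sublist l → super r = true
  | [], r, _, h => by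
    rw [List.sublist_nil] at h
    rw [h]; rfl
  | (a, w) :: l, r, hs, h => by
    rw [super, Bool.and_eq_true] at hs
    rw [List.sublist_cons_iff] at h
    rcases h with h | ⟨r', rfl, h⟩
    · exact super_sublist hs.2 h
    · rw [super, Bool.and_eq_true]
      refine ⟨?_, super_sublist hs.2 h⟩
      have h1 : (r'.map Prod.snd).sum ≤ (l.map Prod.snd).sum :=
        (h.map Prod.snd).sum_le_sum (fun _ _ => Nat.zero_le _)
      have h2 := hs.1
      simp only [Nat.blt, Nat.ble_eq] at h2 ⊢
      omega

/-- the items of `l` can be distributed on `n` bins -/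
def Asg (L n : ℕ) (l : List (ℕ × ℕ)) : Prop :=
  ∃ (f : ℕ × ℕ → ℕ) (B : Finset ℕ), B.card = n ∧ (∀ p ∈ l, f p ∈ B) ∧
    ∀ j ∈ B, ((l.filter (fun p => f p == j)).map Prod.fst).sum ≤ L

theorem Asg.step {L n : ℕ} {x : ℕ × ℕ} {l : List (ℕ × ℕ)} (h : Asg L n (x :: l)) :
    ∃ m b r, n = m + 1 ∧ Split l b r ∧ x.1 + (b.map Prod.fst).sum ≤ L ∧ Asg L m r := by
  obtain ⟨f, B, hB, hf, hs⟩ := h
  have hx : f x ∈ B := hf x (List.mem_cons_self)
  refine ⟨(B.erase (f x)).card, l.filter (fun p => f p == f x),
    l.filter (fun p => !(f p == f x)), ?_, Split.filter _ l, ?_, ?_⟩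
  · rw [Finset.card_erase_of_mem hx, ← hB]
    have := Finset.card_pos.2 ⟨_, hx⟩
    omega
  · have h1 := hs (f x) hx
    rw [List.filter_cons_of_pos (by simp), List.map_cons, List.sum_cons] at h1
    exact h1
  · refine ⟨f, B.erase (f x), rfl, ?_, ?_⟩
    · intro p hp
      rw [List.mem_filter] at hp
      rw [Finset.mem_erase]
      refine ⟨?_, hf p (List.mem_cons_of_mem _ hp.1)⟩
      simpa using hp.2
    · intro j hj
      rw [Finset.mem_erase] at hj
      refine le_trans ?_ (hs j hj.2)
      refine List.Sublist.sum_le_sum (List.Sublist.map _ ?_) (fun _ _ => Nat.zero_le _)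
      exact ((List.filter_sublist).filter _).trans
        ((List.sublist_cons_self _ _).filter _)

theorem Asg.vol {L : ℕ} : ∀ {n : ℕ} {l : List (ℕ × ℕ)}, Asg L n l → (l.map Prod.fst).sum ≤ n * L
  | _, [], _ => by simp
  | _, x :: l, h => by
    obtain ⟨m, b, r, rfl, h1, h2, h3⟩ := h.step
    have h4 := h3.vol
    have h5 := h1.sum
    rw [List.map_cons, List.sum_cons, h5, Nat.succ_mul]
    omega
termination_by _ l => l.length
decreasing_by
  have := h1.sublist.length_le
  simp only [List.length_cons]
  omega

theorem refute_sound {L n : ℕ} {T : Tr} {items l : List (ℕ × ℕ)} (hs : super items = true)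
    (hT : ∀ r : List (ℕ × ℕ), r.Sublist items → T.mem (r.map Prod.snd).sum = true → ¬ Asg L n r)
    (hl : l.Sublist items) (h : refute L T n l = true) : ¬ Asg L (n + 1) l := by
  intro hA
  cases l with
  | nil => simp [refute] at h
  | cons x xs =>
    obtain ⟨m, b, r, hm, h1, h2, h3⟩ := hA.step
    have hm' : n = m := by omega
    subst hm'
    rw [refute] at h
    have hr : r.Sublist items := h1.sublist.trans ((List.sublist_cons_self _ _).trans hl)
    have h4 : T.mem (r.map Prod.snd).sum = false := by
      rw [← Bool.not_eq_true]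
      intro h5
      exact hT r hr h5 h3
    have h5 := fill_complete (k := fun k => !(T.mem k)) (cap := n * L) h1 (rem := L - x.1)
      (vol := 0) (key := 0) (by omega) (by rw [zero_add]; exact h3.vol) (by rw [zero_add, h4]; rfl)
    rw [h5] at h
    exact absurd h (by simp)

theorem checkTabs_sound {L : ℕ} {items : List (ℕ × ℕ)} (hs : super items = true) :
    ∀ {T : Tr} {Ts : List Tr}, checkTabs L items (T :: Ts) = true →
      ∀ r : List (ℕ × ℕ), r.Sublist items → T.mem (r.map Prod.snd).sum = true →
        ¬ Asg L (T :: Ts).length r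
  | T, [], h, r, _, hm => by
    rw [checkTabs] at h
    have := Tr.all_mem h hm
    simp at this
  | T, T' :: Ts, h, r, hr, hm => by
    rw [checkTabs, Bool.and_eq_true] at h
    have h1 := Tr.all_mem h.2 hm
    rw [sel_eq hs hr] at h1
    exact refute_sound hs (checkTabs_sound hs h.1) hr h1

theorem check_sound {L : ℕ} {items : List (ℕ × ℕ)} {T : Tr} {Ts : List Tr}
    (h : check L items (T :: Ts) = true) : ¬ Asg L ((T :: Ts).length + 1) items := by
  rw [check, Bool.and_eq_true, Bool.and_eq_true] at h
  exact refute_sound h.1 (checkTabs_sound h.1 h.2.1) (List.Sublist.refl _) h.2.2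

theorem super_nodup : ∀ {l : List (ℕ × ℕ)}, super l = true → l.Nodup
  | [], _ => List.nodup_nil
  | (a, w) :: l, h => by
    rw [super, Bool.and_eq_true] at h
    rw [List.nodup_cons]
    refine ⟨?_, super_nodup h.2⟩
    intro hm
    have h1 : w ≤ (l.map Prod.snd).sum :=
      List.single_le_sum (fun _ _ => Nat.zero_le _) w (List.mem_map.2 ⟨_, hm, rfl⟩)
    have h2 := h.1
    simp only [Nat.blt, Nat.ble_eq] at h2
    omega

theorem list_sum_filter {ι : Type*} (l : List ι) (q : ι → Bool) (g : ι → ℕ) :
    ((l.filter q).map g).sum = (l.map (fun i => if q i = true then g i else 0)).sum := by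
  induction l with
  | nil => rfl
  | cons a l ih =>
    cases h : q a
    · rw [List.filter_cons_of_neg (by simp [h]), ih, List.map_cons, List.sum_cons, h]
      simp
    · rw [List.filter_cons_of_pos (by simp [h]), List.map_cons, List.sum_cons, ih,
        List.map_cons, List.sum_cons, h]
      simp

theorem asg_of_packable {L N : ℕ} (hL : 0 < L) {items : List (ℕ × ℕ)} (hn : items.Nodup)
    (h : Packable (inst L (items.map Prod.fst)) N) : Asg L N items := by
  obtain ⟨f, hf⟩ := h
  have hlen : (inst L (items.map Prod.fst)).length = items.length := by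
    simp [inst]
  classical
  set F : ℕ × ℕ → ℕ := fun p => if h : items.idxOf p < items.length then
    (f ⟨items.idxOf p, by rw [hlen]; exact h⟩ : ℕ) else 0 with hF
  have hFi : ∀ i : Fin items.length, F (items.get i) = (f (i.cast hlen.symm) : ℕ) := by
    intro i
    have h1 : items.idxOf (items.get i) = i := by
      rw [List.get_eq_getElem]; exact hn.idxOf_getElem i.1 i.2
    rw [hF]
    simp only
    rw [dif_pos (by rw [h1]; exact i.2)]
    congr 1
    apply congrArg
    apply Fin.ext
    exact h1
  refine ⟨F, Finset.range N, Finset.card_range N, ?_, ?_⟩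
  · intro p hp
    rw [List.mem_iff_get] at hp
    obtain ⟨i, rfl⟩ := hp
    rw [hFi, Finset.mem_range]
    exact (f _).2
  · intro j hj
    rw [Finset.mem_range] at hj
    have h1 := hf ⟨j, hj⟩
    have h2 : ((items.filter (fun p => F p == j)).map Prod.fst).sum =
        ∑ i : Fin items.length, if f (i.cast hlen.symm) = ⟨j, hj⟩ then (items.get i).1 else 0 := by
      rw [list_sum_filter]
      conv_lhs => rw [← List.map_get_finRange items]
      rw [List.map_map, Fin.sum_univ_def]
      congr 1
      apply List.map_congr_left
      intro i _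
      simp only [Function.comp, beq_iff_eq]
      rw [hFi]
      have : ((f (i.cast hlen.symm) : ℕ) = j) ↔ f (i.cast hlen.symm) = ⟨j, hj⟩ := by
        constructor
        · intro h; exact Fin.ext h
        · intro h; rw [h]
      simp only [this]
    rw [h2]
    rw [Finset.sum_filter] at h1
    have h3 : ∑ i : Fin (inst L (items.map Prod.fst)).length,
        (if f i = ⟨j, hj⟩ then (inst L (items.map Prod.fst)).get i else 0) =
        ((∑ i : Fin items.length, if f (i.cast hlen.symm) = ⟨j, hj⟩ then (items.get i).1 else 0 :
          ℕ) : ℚ) / L := by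
      rw [Nat.cast_sum, Finset.sum_div]
      refine (Fintype.sum_equiv (finCongr hlen.symm) _ _ ?_).symm
      intro i
      simp only [finCongr_apply]
      split_ifs
      · simp [inst]
        rfl
      · simp
    rw [h3, div_le_one (by exact_mod_cast hL)] at h1
    exact_mod_cast h1

theorem not_packable_of_check {L : ℕ} (hL : 0 < L) {items : List (ℕ × ℕ)} {T : Tr} {Ts : List Tr}
    (h : check L items (T :: Ts) = true) :
    ¬ Packable (inst L (items.map Prod.fst)) ((T :: Ts).length + 1) := by
  have hs : super items = true := by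
    rw [check, Bool.and_eq_true] at h
    exact h.1
  exact fun hp => check_sound h (asg_of_packable hL (super_nodup hs) hp)

end Vale.Agent.P302
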