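import Vale.Agent.P302.Check

/-!
The instance: 23 items, 8 bins, capacity 17640; fractional packing of value 1777 / 228.
Generated data (items with weights, fractional packing, tables of the search).
-/

namespace Vale.Agent.P302.DataA

/-- sizes, in units of 1/17640 -/
def sizes : List ℕ :=
  [12866, 12863, 12858, 7833, 7707, 7623, 6951, 6594, 5964, 5880, 5838, 5460, 5418, 5313, 5082,
    4956, 2394, 2392, 2391, 2388, 2388, 2387, 2384]

/-- the items with weights -/
def items : List (ℕ × ℕ) :=
  [(12866, 4194304), (12863, 2097152), (12858, 1048576), (7833, 524288), (7707, 262144), (7623,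
    131072), (6951, 65536), (6594, 32768), (5964, 16384), (5880, 8192), (5838, 4096), (5460,
    2048), (5418, 1024), (5313, 512), (5082, 256), (4956, 128), (2394, 64), (2392, 32), (2391,
    16), (2388, 8), (2388, 4), (2387, 2), (2384, 1)]

/-- the fractional packing, weights in units of 1/228 -/
def frac : List (ℕ × List ℕ) :=
  [(114, [12866, 2387, 2387]), (6, [7707, 6951, 2394]), (114, [12863, 2392, 2384]), (114, [7833,
    7833]), (114, [7707, 4956, 4956]), (114, [12858, 2394, 2388]), (60, [6594, 5460, 5460]), (66,
    [6594, 5964, 5082]), (76, [5880, 5880, 5880]), (114, [5964, 5838, 5838]), (54, [7707, 5082,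
    2394, 2394]), (108, [6951, 5460, 5082]), (114, [6951, 5313, 5313]), (102, [6594, 5418, 5418]),
    (24, [5964, 5964, 5418]), (114, [7623, 7623, 2392]), (114, [12858, 2391, 2391]), (114, [12863,
    2388, 2388]), (27, [7707, 7707]), (114, [12866, 2388, 2384])]

/-- sublists not fitting into 7 bins -/
def tab7 : Tr :=
  (.node (.node (.node (.node .nil 4194239 .nil) 4194271 .nil) 4194287 (.node (.node .nil
    4194294 .nil) 4194295 .nil)) 4194298 (.node (.node (.node .nil 4194299 .nil) 4194300 .nil)
    4194301 (.node (.node .nil 4194302 .nil) 4194303 .nil)))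

/-- sublists not fitting into 6 bins -/
def tab6 : Tr :=
  (.node (.node (.node (.node (.node (.node .nil 2097054 .nil) 2097055 .nil) 2097070 (.node
    (.node .nil 2097071 .nil) 2097075 .nil)) 2097077 (.node (.node (.node .nil 2097078 .nil)
    2097079 .nil) 2097081 (.node (.node .nil 2097082 .nil) 2097083 .nil))) 2097084 (.node (.node
    (.node (.node .nil 2097085 .nil) 2097086 .nil) 2097102 (.node (.node .nil 2097103 .nil)
    2097107 .nil)) 2097109 (.node (.node (.node .nil 2097110 .nil) 2097111 .nil) 2097113 (.node
    (.node .nil 2097114 .nil) 2097115 .nil)))) 2097116 (.node (.node (.node (.node (.node .nil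
    2097117 .nil) 2097118 .nil) 2097123 (.node (.node .nil 2097125 .nil) 2097126 .nil)) 2097127
    (.node (.node (.node .nil 2097129 .nil) 2097130 .nil) 2097131 (.node (.node .nil 2097132 .nil)
    2097133 .nil))) 2097134 (.node (.node (.node (.node .nil 2097136 .nil) 2097137 .nil) 2097138
    (.node (.node .nil 2097139 .nil) 2097140 .nil)) 2097141 (.node (.node (.node .nil 2097142
    .nil) 2097144 .nil) 2097145 (.node (.node .nil 2097146 .nil) 2097148 .nil)))))

/-- sublists not fitting into 5 bins -/
def tab5 : Tr :=
  (.node (.node (.node (.node (.node (.node .nil 1048454 .nil) 1048455 (.node .nil 1048458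
    .nil)) 1048459 (.node (.node .nil 1048460 .nil) 1048461 .nil)) 1048462 (.node (.node (.node
    .nil 1048465 .nil) 1048466 (.node .nil 1048467 .nil)) 1048468 (.node (.node .nil 1048469 .nil)
    1048470 .nil))) 1048472 (.node (.node (.node (.node .nil 1048473 .nil) 1048474 (.node .nil
    1048476 .nil)) 1048481 (.node (.node .nil 1048482 .nil) 1048483 .nil)) 1048484 (.node (.node
    (.node .nil 1048485 .nil) 1048486 .nil) 1048488 (.node (.node .nil 1048489 .nil) 1048490
    .nil)))) 1048492 (.node (.node (.node (.node (.node .nil 1048496 .nil) 1048497 (.node .nil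
    1048498 .nil)) 1048500 (.node (.node .nil 1048504 .nil) 1048513 .nil)) 1048514 (.node (.node
    (.node .nil 1048515 .nil) 1048516 (.node .nil 1048517 .nil)) 1048518 (.node (.node .nil
    1048520 .nil) 1048521 .nil))) 1048522 (.node (.node (.node (.node .nil 1048524 .nil) 1048528
    (.node .nil 1048529 .nil)) 1048530 (.node (.node .nil 1048532 .nil) 1048536 .nil)) 1048544
    (.node (.node (.node .nil 1048545 .nil) 1048546 .nil) 1048548 (.node (.node .nil 1048552 .nil)
    1048560 .nil)))))

/-- sublists not fitting into 4 bins -/
def tab4 : Tr :=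
  (.node (.node (.node (.node (.node (.node (.node .nil 262022 .nil) 262026 (.node .nil 262028
    .nil)) 262033 (.node (.node .nil 262034 .nil) 262036 .nil)) 262040 (.node (.node (.node .nil
    262049 .nil) 262050 (.node .nil 262052 .nil)) 262056 (.node (.node .nil 262064 .nil) 262081
    .nil))) 262082 (.node (.node (.node (.node .nil 262084 .nil) 262088 (.node .nil 262096 .nil))
    262112 (.node (.node .nil 393094 .nil) 393098 .nil)) 393100 (.node (.node (.node .nil 393105
    .nil) 393106 .nil) 393108 (.node (.node .nil 393112 .nil) 393121 .nil)))) 393122 (.node (.node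
    (.node (.node (.node .nil 393124 .nil) 393128 (.node .nil 393136 .nil)) 393153 (.node (.node
    .nil 393154 .nil) 393156 .nil)) 393160 (.node (.node (.node .nil 393168 .nil) 393184 (.node
    .nil 458625 .nil)) 458626 (.node (.node .nil 458628 .nil) 458632 .nil))) 458640 (.node (.node
    (.node (.node .nil 458656 .nil) 458688 (.node .nil 491393 .nil)) 491394 (.node (.node .nil
    491396 .nil) 491400 .nil)) 491408 (.node (.node (.node .nil 491424 .nil) 491456 .nil) 507777
    (.node (.node .nil 507778 .nil) 507780 .nil))))) 507784 (.node (.node (.node (.node (.node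
    (.node .nil 507792 .nil) 507808 (.node .nil 507840 .nil)) 515969 (.node (.node .nil 515970
    .nil) 515972 .nil)) 515976 (.node (.node (.node .nil 515984 .nil) 516000 (.node .nil 516032
    .nil)) 520065 (.node (.node .nil 520066 .nil) 520068 .nil))) 520072 (.node (.node (.node
    (.node .nil 520080 .nil) 520096 (.node .nil 520128 .nil)) 522113 (.node (.node .nil 522114
    .nil) 522116 .nil)) 522120 (.node (.node (.node .nil 522128 .nil) 522144 .nil) 522176 (.node
    (.node .nil 523137 .nil) 523138 .nil)))) 523140 (.node (.node (.node (.node (.node .nil 523144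
    .nil) 523152 (.node .nil 523168 .nil)) 523200 (.node (.node .nil 523649 .nil) 523650 .nil))
    523652 (.node (.node (.node .nil 523656 .nil) 523664 (.node .nil 523680 .nil)) 523712 (.node
    (.node .nil 523905 .nil) 523906 .nil))) 523908 (.node (.node (.node (.node .nil 523912 .nil)
    523920 (.node .nil 523936 .nil)) 523968 (.node (.node .nil 524032 .nil) 524033 .nil)) 524034
    (.node (.node (.node .nil 524036 .nil) 524040 .nil) 524048 (.node (.node .nil 524064 .nil)
    524096 .nil))))))

/-- sublists not fitting into 3 bins -/
def tab3 : Tr :=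
  (.node (.node (.node (.node (.node .nil 65409 .nil) 65410 .nil) 65412 (.node .nil 65416 .nil))
    65424 (.node (.node (.node .nil 65440 .nil) 65472 .nil) 130688 (.node .nil 130816 .nil)))
    163712 (.node (.node (.node (.node .nil 180096 .nil) 188288 .nil) 192384 (.node .nil 194432
    .nil)) 195456 (.node (.node (.node .nil 195968 .nil) 212864 .nil) 221056 (.node .nil 225152
    .nil))))

/-- sublists not fitting into 2 bins -/
def tab2 : Tr :=
  (.node (.node (.node (.node .nil 16001 .nil) 16002 .nil) 16004 (.node (.node .nil 16008 .nil)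
    16016 .nil)) 16032 (.node (.node (.node .nil 16064 .nil) 62976 .nil) 64000 (.node .nil 64512
    .nil)))

/-- sublists not fitting into 1 bins -/
def tab1 : Tr :=
  .nil

set_option maxRecDepth 100000 in
theorem check_ok : check 17640 items [tab7, tab6, tab5, tab4, tab3, tab2, tab1] = true := by decide +kernel

theorem not_packable : ¬ Packable (inst 17640 sizes) 8 :=
  not_packable_of_check (by norm_num) check_ok

set_option maxRecDepth 100000 in
theorem frac_fits : ∀ p ∈ frac, p.2.sum ≤ 17640 := by decide +kernel

set_option maxRecDepth 100000 in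
theorem frac_covers : ∀ a ∈ sizes, 228 * sizes.count a ≤ (frac.map (fun p => p.1 * p.2.count a)).sum := by
  decide +kernel

theorem frac_value : (frac.map (fun p => p.1)).sum = 1777 := by decide +kernel

theorem LP_le : LP (inst 17640 sizes) ≤ 1777 / 228 := by
  have h := Vale.Agent.P302.LP_le (L := 17640) (D := 228) (by norm_num) (by norm_num) sizes frac frac_fits
    frac_covers
  rw [frac_value] at h
  exact_mod_cast h

set_option maxRecDepth 100000 in
theorem sizes_pos : ∀ a ∈ sizes, 0 < a ∧ a ≤ 17640 := by decide +kernel

end Vale.Agent.P302.DataA
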