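import Vale.Agent.P302.Multi

/-!
The instance: 39 items, not packable into 13 bins of capacity 180300; fractional packing of value
51 / 4. Generated data.
-/

namespace Vale.Agent.P302.DataB

/-- sizes, in units of 1/180300 -/
def sizes : List ℕ :=
  [144382, 144380, 144375, 104349, 104316, 104314, 104309, 90292, 90290, 90285, 61000, 60112,
    60109, 60101, 60099, 60094, 60082, 45040, 45018, 45015, 45007, 45004, 44994, 44991, 39000,
    39000, 38006, 38003, 37995, 37992, 37982, 37979, 17995, 17973, 17970, 17962, 17959, 17949,
    17946]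

/-- the fractional packing, weights in units of 1/4 -/
def frac : List (ℕ × List ℕ) :=
  [(2, [60101, 60099, 60099]), (2, [90290, 45018, 44991]), (2, [144375, 17962, 17962]), (2,
    [104349, 39000, 17995, 17995]), (2, [90285, 45018, 44994]), (2, [60112, 60094, 60094]), (2,
    [90285, 45007, 45007]), (2, [144382, 17959, 17959]), (2, [60109, 60109, 60082]), (2, [104314,
    38006, 37979]), (2, [104349, 61000]), (2, [60112, 60101, 60082]), (2, [144382, 17970, 17946]),
    (2, [90292, 45015, 44991]), (1, [45040, 45040, 45040, 45040]), (2, [90292, 45004, 45004]), (2,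
    [61000, 39000, 39000, 39000]), (2, [104309, 37995, 37995]), (2, [90290, 45015, 44994]), (2,
    [144375, 17973, 17949]), (2, [104316, 38003, 37979]), (2, [104316, 37992, 37992]), (2,
    [144380, 17970, 17949]), (2, [144380, 17973, 17946]), (2, [104314, 38003, 37982]), (2,
    [104309, 38006, 37982])]

/-- thresholds -/
def ths : List ℕ :=
  [144375, 104349, 104309, 90285, 61000, 60082, 45040, 44991, 39000, 37979, 17995, 17946]

/-- classes with weights, in units of 1/28 -/
def cls : List (ℕ × ℕ) :=
  [(144375, 26), (104309, 18), (104349, 18), (60082, 10), (90285, 15), (61000, 10), (37979, 6),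
    (44991, 7), (45040, 7), (39000, 6), (17946, 2), (17995, 2)]

/-- patterns with excess weight -/
def pats : List (List ℕ × ℕ) :=
  [([60082, 60082, 60082], 2), ([37979, 37979, 104309], 2), ([44991, 44991, 90285], 1), ([17946,
    17946, 144375], 2)]

/-- gadgets: pattern, copies, excess weight -/
def gads : List (List ℕ × ℕ × ℕ) :=
  [([60082, 60082, 60082], 2, 2), ([37979, 37979, 104309], 3, 2), ([44991, 44991, 90285], 3, 1),
    ([17946, 17946, 144375], 3, 2)]

/-- the nominal items -/
def rest : List (ℕ × ℕ) :=
  [(144375, 131072), (104349, 65536), (104309, 32768), (90285, 16384), (61000, 8192), (60082,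
    4096), (60082, 2048), (60082, 1024), (45040, 512), (44991, 256), (44991, 128), (39000, 64),
    (39000, 32), (37979, 16), (37979, 8), (17995, 4), (17946, 2), (17946, 1)]

/-- sublists not fitting into 5 bins -/
def tab5 : Tr :=
  (.node (.node (.node .nil 131067 .nil) 131069 .nil) 131070 (.node .nil 131071 .nil))

/-- sublists not fitting into 4 bins -/
def tab4 : Tr :=
  (.node (.node (.node (.node (.node (.node .nil 57339 .nil) 57341 (.node .nil 57342 .nil))
    57343 (.node (.node .nil 61435 .nil) 61437 .nil)) 61438 (.node (.node (.node .nil 61439 .nil)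
    63483 .nil) 63485 (.node (.node .nil 63486 .nil) 63487 .nil))) 64507 (.node (.node (.node
    (.node .nil 64509 .nil) 64510 (.node .nil 64511 .nil)) 65017 (.node (.node .nil 65018 .nil)
    65019 .nil)) 65020 (.node (.node (.node .nil 65021 .nil) 65022 .nil) 65273 (.node (.node .nil
    65274 .nil) 65275 .nil)))) 65276 (.node (.node (.node (.node (.node .nil 65277 .nil) 65278
    (.node .nil 65401 .nil)) 65402 (.node (.node .nil 65403 .nil) 65404 .nil)) 65405 (.node (.node
    (.node .nil 65406 .nil) 65464 .nil) 65465 (.node (.node .nil 65466 .nil) 65468 .nil))) 65496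
    (.node (.node (.node (.node .nil 65497 .nil) 65498 .nil) 65500 (.node (.node .nil 65512 .nil)
    65513 .nil)) 65514 (.node (.node (.node .nil 65516 .nil) 65520 .nil) 65521 (.node (.node .nil
    65522 .nil) 65524 .nil)))))

/-- sublists not fitting into 3 bins -/
def tab3 : Tr :=
  (.node (.node (.node (.node (.node (.node (.node (.node .nil 20475 .nil) 20477 .nil) 20478
    (.node .nil 22523 .nil)) 22525 (.node (.node .nil 22526 .nil) 23547 (.node .nil 23549 .nil)))
    23550 (.node (.node (.node .nil 24057 .nil) 24058 (.node .nil 24060 .nil)) 24313 (.node (.node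
    .nil 24314 .nil) 24316 (.node .nil 24441 .nil)))) 24442 (.node (.node (.node (.node (.node
    .nil 24444 .nil) 24504 .nil) 24505 (.node .nil 24506 .nil)) 24508 (.node (.node .nil 24536
    .nil) 24537 (.node .nil 24538 .nil))) 24540 (.node (.node (.node .nil 24552 .nil) 24553 (.node
    .nil 24554 .nil)) 24556 (.node (.node .nil 24560 .nil) 24561 (.node .nil 24562 .nil))))) 24564
    (.node (.node (.node (.node (.node (.node .nil 26619 .nil) 26621 .nil) 26622 (.node .nil 27643
    .nil)) 27645 (.node (.node .nil 27646 .nil) 28153 (.node .nil 28154 .nil))) 28156 (.node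
    (.node (.node .nil 28409 .nil) 28410 (.node .nil 28412 .nil)) 28537 (.node (.node .nil 28538
    .nil) 28540 (.node .nil 28600 .nil)))) 28601 (.node (.node (.node (.node .nil 28602 .nil)
    28604 (.node .nil 28632 .nil)) 28633 (.node (.node .nil 28634 .nil) 28636 (.node .nil 28648
    .nil))) 28649 (.node (.node (.node .nil 28650 .nil) 28652 (.node .nil 28656 .nil)) 28657
    (.node (.node .nil 28658 .nil) 28660 (.node .nil 29691 .nil)))))) 29693 (.node (.node (.node
    (.node (.node (.node (.node .nil 29694 .nil) 30201 .nil) 30202 (.node .nil 30204 .nil)) 30457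
    (.node (.node .nil 30458 .nil) 30460 (.node .nil 30585 .nil))) 30586 (.node (.node (.node .nil
    30588 .nil) 30648 (.node .nil 30649 .nil)) 30650 (.node (.node .nil 30652 .nil) 30680 (.node
    .nil 30681 .nil)))) 30682 (.node (.node (.node (.node (.node .nil 30684 .nil) 30696 .nil)
    30697 (.node .nil 30698 .nil)) 30700 (.node (.node .nil 30704 .nil) 30705 (.node .nil 30706
    .nil))) 30708 (.node (.node (.node .nil 31225 .nil) 31226 (.node .nil 31228 .nil)) 31481
    (.node (.node .nil 31482 .nil) 31484 (.node .nil 31609 .nil))))) 31610 (.node (.node (.node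
    (.node (.node (.node .nil 31612 .nil) 31672 .nil) 31673 (.node .nil 31674 .nil)) 31676 (.node
    (.node .nil 31704 .nil) 31705 (.node .nil 31706 .nil))) 31708 (.node (.node (.node .nil 31720
    .nil) 31721 (.node .nil 31722 .nil)) 31724 (.node (.node .nil 31728 .nil) 31729 (.node .nil
    31730 .nil)))) 31732 (.node (.node (.node (.node .nil 31992 .nil) 32120 (.node .nil 32184
    .nil)) 32216 (.node (.node .nil 32232 .nil) 32240 (.node .nil 32376 .nil))) 32440 (.node
    (.node (.node .nil 32472 .nil) 32488 (.node .nil 32496 .nil)) 32568 (.node (.node .nil 32600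
    .nil) 32616 (.node .nil 32624 .nil)))))))

/-- sublists not fitting into 2 bins -/
def tab2 : Tr :=
  (.node (.node (.node (.node (.node (.node (.node (.node .nil 7353 .nil) 7354 (.node .nil 7356
    .nil)) 7385 (.node (.node .nil 7386 .nil) 7388 (.node .nil 7401 .nil))) 7402 (.node (.node
    (.node .nil 7404 .nil) 7409 (.node .nil 7410 .nil)) 7412 (.node (.node .nil 7481 .nil) 7482
    .nil))) 7484 (.node (.node (.node (.node .nil 7513 .nil) 7514 (.node .nil 7516 .nil)) 7529
    (.node (.node .nil 7530 .nil) 7532 (.node .nil 7537 .nil))) 7538 (.node (.node (.node .nil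
    7540 .nil) 7576 (.node .nil 7592 .nil)) 7600 (.node (.node .nil 7624 .nil) 7632 .nil)))) 7648
    (.node (.node (.node (.node (.node .nil 7737 .nil) 7738 (.node .nil 7740 .nil)) 7769 (.node
    (.node .nil 7770 .nil) 7772 (.node .nil 7785 .nil))) 7786 (.node (.node (.node .nil 7788 .nil)
    7793 (.node .nil 7794 .nil)) 7796 (.node (.node .nil 7832 .nil) 7848 .nil))) 7856 (.node
    (.node (.node (.node .nil 7880 .nil) 7888 (.node .nil 7904 .nil)) 7960 (.node (.node .nil 7976
    .nil) 7984 (.node .nil 8008 .nil))) 8016 (.node (.node (.node .nil 8032 .nil) 8072 (.node .nil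
    8080 .nil)) 8096 (.node (.node .nil 8128 .nil) 11449 .nil))))) 11450 (.node (.node (.node
    (.node (.node (.node .nil 11452 .nil) 11481 (.node .nil 11482 .nil)) 11484 (.node (.node .nil
    11497 .nil) 11498 (.node .nil 11500 .nil))) 11505 (.node (.node (.node .nil 11506 .nil) 11508
    (.node .nil 11577 .nil)) 11578 (.node (.node .nil 11580 .nil) 11609 .nil))) 11610 (.node
    (.node (.node (.node .nil 11612 .nil) 11625 (.node .nil 11626 .nil)) 11628 (.node (.node .nil
    11633 .nil) 11634 (.node .nil 11636 .nil))) 11672 (.node (.node (.node .nil 11688 .nil) 11696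
    (.node .nil 11720 .nil)) 11728 (.node (.node .nil 11744 .nil) 11833 .nil)))) 11834 (.node
    (.node (.node (.node (.node .nil 11836 .nil) 11865 (.node .nil 11866 .nil)) 11868 (.node
    (.node .nil 11881 .nil) 11882 (.node .nil 11884 .nil))) 11889 (.node (.node (.node .nil 11890
    .nil) 11892 (.node .nil 11928 .nil)) 11944 (.node (.node .nil 11952 .nil) 11976 .nil))) 11984
    (.node (.node (.node (.node .nil 12000 .nil) 12056 (.node .nil 12072 .nil)) 12080 (.node
    (.node .nil 12104 .nil) 12112 .nil)) 12128 (.node (.node (.node .nil 12168 .nil) 12176 (.node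
    .nil 12192 .nil)) 12224 (.node (.node .nil 13497 .nil) 13498 .nil)))))) 13500 (.node (.node
    (.node (.node (.node (.node (.node .nil 13529 .nil) 13530 (.node .nil 13532 .nil)) 13545
    (.node (.node .nil 13546 .nil) 13548 (.node .nil 13553 .nil))) 13554 (.node (.node (.node .nil
    13556 .nil) 13625 (.node .nil 13626 .nil)) 13628 (.node (.node .nil 13657 .nil) 13658 .nil)))
    13660 (.node (.node (.node (.node .nil 13673 .nil) 13674 (.node .nil 13676 .nil)) 13681 (.node
    (.node .nil 13682 .nil) 13684 (.node .nil 13720 .nil))) 13736 (.node (.node (.node .nil 13744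
    .nil) 13768 (.node .nil 13776 .nil)) 13792 (.node (.node .nil 13881 .nil) 13882 .nil)))) 13884
    (.node (.node (.node (.node (.node .nil 13913 .nil) 13914 (.node .nil 13916 .nil)) 13929
    (.node (.node .nil 13930 .nil) 13932 (.node .nil 13937 .nil))) 13938 (.node (.node (.node .nil
    13940 .nil) 13976 (.node .nil 13992 .nil)) 14000 (.node (.node .nil 14024 .nil) 14032 .nil)))
    14048 (.node (.node (.node (.node .nil 14104 .nil) 14120 (.node .nil 14128 .nil)) 14152 (.node
    (.node .nil 14160 .nil) 14176 .nil)) 14216 (.node (.node (.node .nil 14224 .nil) 14240 (.node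
    .nil 14272 .nil)) 14521 (.node (.node .nil 14522 .nil) 14524 .nil))))) 14553 (.node (.node
    (.node (.node (.node (.node .nil 14554 .nil) 14556 (.node .nil 14569 .nil)) 14570 (.node
    (.node .nil 14572 .nil) 14577 (.node .nil 14578 .nil))) 14580 (.node (.node (.node .nil 14649
    .nil) 14650 (.node .nil 14652 .nil)) 14681 (.node (.node .nil 14682 .nil) 14684 .nil))) 14697
    (.node (.node (.node (.node .nil 14698 .nil) 14700 (.node .nil 14705 .nil)) 14706 (.node
    (.node .nil 14708 .nil) 14744 (.node .nil 14760 .nil))) 14768 (.node (.node (.node .nil 14792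
    .nil) 14800 (.node .nil 14816 .nil)) 14905 (.node (.node .nil 14906 .nil) 14908 .nil)))) 14937
    (.node (.node (.node (.node (.node .nil 14938 .nil) 14940 (.node .nil 14953 .nil)) 14954
    (.node (.node .nil 14956 .nil) 14961 (.node .nil 14962 .nil))) 14964 (.node (.node (.node .nil
    15000 .nil) 15016 (.node .nil 15024 .nil)) 15048 (.node (.node .nil 15056 .nil) 15072 .nil)))
    15128 (.node (.node (.node (.node .nil 15144 .nil) 15152 (.node .nil 15176 .nil)) 15184 (.node
    (.node .nil 15200 .nil) 15240 .nil)) 15248 (.node (.node (.node .nil 15264 .nil) 15296 (.node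
    .nil 15416 .nil)) 15448 (.node (.node .nil 15464 .nil) 15472 .nil)))))))

/-- sublists not fitting into 1 bins -/
def tab1 : Tr :=
  (.node .nil 7168 .nil)

set_option maxRecDepth 100000 in
theorem rest_ok : checkF (gads.map Prod.fst) 180300 rest [tab5, tab4, tab3, tab2, tab1] = true := by decide +kernel

theorem gad0 : ¬ Pk 180300 [] 2 ([60112, 60109, 60101, 60099, 60094, 60082] : List ℕ) :=
  checkF_sound (items := [(60112, 32), (60109, 16), (60101, 8), (60099, 4), (60094, 2), (60082, 1)])
    (T := .nil) (Ts := []) (by decide +kernel)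

theorem gad1 : ¬ Pk 180300 [] 3 ([104316, 104314, 104309, 38006, 38003, 37995, 37992, 37982, 37979] : List ℕ) :=
  checkF_sound (items := [(104316, 256), (104314, 128), (104309, 64), (38006, 32), (38003, 16), (37995, 8), (37992, 4),
    (37982, 2), (37979, 1)])
    (T := (.node .nil 238 .nil)) (Ts := [.nil]) (by decide +kernel)

theorem gad2 : ¬ Pk 180300 [] 3 ([90292, 90290, 90285, 45018, 45015, 45007, 45004, 44994, 44991] : List ℕ) :=
  checkF_sound (items := [(90292, 256), (90290, 128), (90285, 64), (45018, 32), (45015, 16), (45007, 8), (45004, 4),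
    (44994, 2), (44991, 1)])
    (T := (.node .nil 238 .nil)) (Ts := [.nil]) (by decide +kernel)

theorem gad3 : ¬ Pk 180300 [] 3 ([144382, 144380, 144375, 17973, 17970, 17962, 17959, 17949, 17946] : List ℕ) :=
  checkF_sound (items := [(144382, 256), (144380, 128), (144375, 64), (17973, 32), (17970, 16), (17962, 8), (17959, 4),
    (17949, 2), (17946, 1)])
    (T := (.node .nil 238 .nil)) (Ts := [.nil]) (by decide +kernel)

set_option maxRecDepth 100000 in
theorem gads_ok : ∀ g ∈ gads, ¬ Pk 180300 [] g.2.1
    ((sizes.filter (fun a => decide (rnd ths a ∈ g.1)) : List ℕ) : Multiset ℕ) := by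
  intro g hg
  simp only [gads, List.mem_cons, List.not_mem_nil, or_false] at hg
  rcases hg with rfl | rfl | rfl | rfl
  · have h : sizes.filter (fun a => decide (rnd ths a ∈ [60082, 60082, 60082])) =
        [60112, 60109, 60101, 60099, 60094, 60082] := by decide +kernel
    rw [h]; exact gad0
  · have h : sizes.filter (fun a => decide (rnd ths a ∈ [37979, 37979, 104309])) =
        [104316, 104314, 104309, 38006, 38003, 37995, 37992, 37982, 37979] := by decide +kernel
    rw [h]; exact gad1
  · have h : sizes.filter (fun a => decide (rnd ths a ∈ [44991, 44991, 90285])) =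
        [90292, 90290, 90285, 45018, 45015, 45007, 45004, 44994, 44991] := by decide +kernel
    rw [h]; exact gad2
  · have h : sizes.filter (fun a => decide (rnd ths a ∈ [17946, 17946, 144375])) =
        [144382, 144380, 144375, 17973, 17970, 17962, 17959, 17949, 17946] := by decide +kernel
    rw [h]; exact gad3

set_option maxRecDepth 100000 in
theorem not_packable : ¬ Packable (inst 180300 sizes) 13 :=
  master_check (D := 28) (fuel := 11) (ts := ths) (cs := cls) (P := pats) (G := gads)
    (rest := rest.map Prod.fst) (n' := 6) (by norm_num) (by decide +kernel) (by decide +kernel)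
    (by decide +kernel) (by decide +kernel) (by decide +kernel) (by decide +kernel)
    (by decide +kernel) gads_ok (by decide +kernel) (by decide +kernel) (checkF_sound rest_ok)
    (by decide +kernel)

set_option maxRecDepth 100000 in
theorem frac_fits : ∀ p ∈ frac, p.2.sum ≤ 180300 := by decide +kernel

set_option maxRecDepth 100000 in
theorem frac_covers : ∀ a ∈ sizes, 4 * sizes.count a ≤
    (frac.map (fun p => p.1 * p.2.count a)).sum := by decide +kernel

theorem frac_value : (frac.map (fun p => p.1)).sum = 51 := by decide +kernel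

theorem LP_le : LP (inst 180300 sizes) ≤ 51 / 4 := by
  have h := Vale.Agent.P302.LP_le (L := 180300) (D := 4) (by norm_num) (by norm_num) sizes frac frac_fits
    frac_covers
  rw [frac_value] at h
  exact_mod_cast h

set_option maxRecDepth 100000 in
theorem sizes_pos : ∀ a ∈ sizes, 0 < a ∧ a ≤ 180300 := by decide +kernel

end Vale.Agent.P302.DataB
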