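import Vale.Agent.P302.Bounds

/-!
Extension by full items: one instance gives instances with all larger numbers of bins.
-/

namespace Vale.Agent.P302

open Finset

/-- contents of the bins realise a packing -/
theorem exists_fun : ∀ (s : List ℚ) {k : ℕ} (β : Fin k → Multiset ℚ),
    ∑ j, β j = (s : Multiset ℚ) →
    ∃ f : Fin s.length → Fin k, ∀ j, ∑ i with f i = j, s.get i = (β j).sum
  | [], k, β, h => by
    refine ⟨fun i => i.elim0, fun j => ?_⟩
    have h1 : β j = 0 := by
      have h2 : β j ≤ ∑ j, β j := Finset.single_le_sum (fun _ _ => Multiset.zero_le _) (mem_univ j)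
      rw [h] at h2
      exact Multiset.le_zero.1 h2
    rw [h1]
    simp
  | a :: s, k, β, h => by
    have ha : a ∈ ∑ j, β j := by rw [h]; simp
    rw [Multiset.mem_sum] at ha
    obtain ⟨j0, _, hj0⟩ := ha
    obtain ⟨b, hb⟩ := Multiset.exists_cons_of_mem hj0
    have h1 : ∑ j, Function.update β j0 b j = (s : Multiset ℚ) := by
      have h2 : ∑ j, β j = β j0 + ∑ j ∈ univ.erase j0, β j :=
        (Finset.add_sum_erase _ _ (mem_univ j0)).symm
      have h3 : ∑ j, Function.update β j0 b j = b + ∑ j ∈ univ.erase j0, β j := by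
        rw [← Finset.add_sum_erase _ _ (mem_univ j0), Function.update_self]
        congr 1
        refine Finset.sum_congr rfl fun j hj => ?_
        rw [Function.update_of_ne (Finset.ne_of_mem_erase hj)]
      rw [h3]
      rw [h2, hb, Multiset.cons_add, ← Multiset.cons_coe, Multiset.cons_inj_right] at h
      exact h
    obtain ⟨f, hf⟩ := exists_fun s _ h1
    refine ⟨Fin.cons j0 f, fun j => ?_⟩
    have h4 : ∀ j, (∑ i with (Fin.cons j0 f : Fin (s.length + 1) → Fin k) i = j, (a :: s).get i) =
        (if j0 = j then a else 0) + ∑ i with f i = j, s.get i := by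
      intro j
      rw [Finset.sum_filter, Finset.sum_filter]
      exact Fin.sum_univ_succ _
    refine (h4 j).trans ?_
    rw [hf j]
    by_cases hj : j0 = j
    · subst hj
      rw [if_pos rfl, Function.update_self, hb, Multiset.sum_cons]
    · rw [if_neg hj, Function.update_of_ne (fun h => hj h.symm), zero_add]

theorem packable_iff {I : List ℚ} {k : ℕ} : Packable I k ↔
    ∃ β : Fin k → Multiset ℚ, ∑ j, β j = (I : Multiset ℚ) ∧ ∀ j, (β j).sum ≤ 1 := by
  constructor
  · rintro ⟨f, hf⟩
    refine ⟨fun j => (univ.filter (fun i => f i = j)).val.map I.get, ?_, fun j => hf j⟩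
    have h1 : ∀ s : Finset (Fin I.length), s.val.map I.get = ∑ i ∈ s, ({I.get i} : Multiset ℚ) := by
      intro s
      have h : (fun i => ({I.get i} : Multiset ℚ)) = (fun a => ({a} : Multiset ℚ)) ∘ I.get := rfl
      rw [Finset.sum_eq_multiset_sum, h, ← Multiset.map_map (fun a => ({a} : Multiset ℚ)) I.get,
        Multiset.sum_map_singleton]
    have h2 : (univ : Finset (Fin I.length)).val.map I.get = (I : Multiset ℚ) := by
      have h3 : (univ : Finset (Fin I.length)).val = (List.finRange I.length : Multiset _) := rfl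
      rw [h3, Multiset.map_coe, List.map_get_finRange]
    rw [← h2, h1]
    simp only [h1]
    exact Finset.sum_fiberwise _ _ _
  · rintro ⟨β, h1, h2⟩
    obtain ⟨f, hf⟩ := exists_fun I β h1
    exact ⟨f, fun j => by rw [hf j]; exact h2 j⟩

theorem packable_cons_one {I : List ℚ} {k : ℕ} (h : Packable I k) : Packable (1 :: I) (k + 1) := by
  rw [packable_iff] at h ⊢
  obtain ⟨β, h1, h2⟩ := h
  refine ⟨Fin.cons {1} β, ?_, fun j => ?_⟩
  · rw [Fin.sum_univ_succ]
    simp only [Fin.cons_zero, Fin.cons_succ]
    rw [h1, Multiset.singleton_add, Multiset.cons_coe]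
  · refine Fin.cases ?_ (fun i => ?_) j
    · simp
    · simpa using h2 i

theorem not_packable_cons_one {I : List ℚ} (hI : ∀ a ∈ I, 0 < a) {k : ℕ} (h : ¬ Packable I k) :
    ¬ Packable (1 :: I) (k + 1) := by
  rw [packable_iff] at h ⊢
  rintro ⟨β, h1, h2⟩
  apply h
  have ha : (1 : ℚ) ∈ ∑ j, β j := by rw [h1]; simp
  rw [Multiset.mem_sum] at ha
  obtain ⟨j0, _, hj0⟩ := ha
  obtain ⟨b, hb⟩ := Multiset.exists_cons_of_mem hj0
  rw [Fin.sum_univ_succAbove _ j0, hb, Multiset.cons_add, ← Multiset.cons_coe,
    Multiset.cons_inj_right] at h1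
  have hb0 : b = 0 := by
    by_contra hne
    obtain ⟨x, hx⟩ := Multiset.exists_mem_of_ne_zero hne
    have hpos : ∀ y ∈ b, (0 : ℚ) < y := by
      intro y hy
      have : y ∈ (I : Multiset ℚ) := by
        rw [← h1]; exact Multiset.mem_add.2 (Or.inl hy)
      exact hI y (by simpa using this)
    obtain ⟨b', rfl⟩ := Multiset.exists_cons_of_mem hx
    have h3 := h2 j0
    rw [hb, Multiset.sum_cons, Multiset.sum_cons] at h3
    have h4 := hpos x (Multiset.mem_cons_self _ _)
    have h5 : 0 ≤ b'.sum := Multiset.sum_nonneg fun y hy =>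
      (hpos y (Multiset.mem_cons_of_mem hy)).le
    linarith
  subst hb0
  refine ⟨fun i => β (j0.succAbove i), ?_, fun j => h2 _⟩
  simpa using h1

theorem inst_cons {L : ℕ} (hL : 0 < L) (s : List ℕ) : inst L (L :: s) = 1 :: inst L s := by
  unfold inst
  rw [List.map_cons, div_self]
  exact_mod_cast hL.ne'

theorem packable_ext {L : ℕ} (hL : 0 < L) {s : List ℕ} {k : ℕ} (h : Packable (inst L s) k) :
    ∀ m, Packable (inst L (List.replicate m L ++ s)) (k + m)
  | 0 => h
  | m + 1 => by
    rw [List.replicate_succ, List.cons_append, inst_cons hL]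
    exact packable_cons_one (packable_ext hL h m)

theorem not_packable_ext {L : ℕ} (hL : 0 < L) {s : List ℕ} (hs : ∀ a ∈ s, 0 < a) {k : ℕ}
    (h : ¬ Packable (inst L s) k) :
    ∀ m, ¬ Packable (inst L (List.replicate m L ++ s)) (k + m)
  | 0 => h
  | m + 1 => by
    rw [List.replicate_succ, List.cons_append, inst_cons hL]
    refine not_packable_cons_one ?_ (not_packable_ext hL hs h m)
    intro a ha
    unfold inst at ha
    rw [List.mem_map] at ha
    obtain ⟨x, hx, rfl⟩ := ha
    have hx0 : 0 < x := by
      rw [List.mem_append] at hx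
      rcases hx with hx | hx
      · rw [List.eq_of_mem_replicate hx]; exact hL
      · exact hs x hx
    have h1 : (0 : ℚ) < x := by exact_mod_cast hx0
    have h2 : (0 : ℚ) < L := by exact_mod_cast hL
    positivity

/-- bins given as lists of sizes -/
theorem packable_of_bins {L : ℕ} (hL : 0 < L) {s : List ℕ} (bins : List (List ℕ))
    (h1 : ∀ b ∈ bins, b.sum ≤ L) (h2 : (bins.flatten : Multiset ℕ) = (s : Multiset ℕ)) :
    Packable (inst L s) bins.length := by
  rw [packable_iff]
  refine ⟨fun j => (inst L (bins.get j) : Multiset ℚ), ?_, fun j => ?_⟩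
  · have h3 : ∑ j : Fin bins.length, ((inst L (bins.get j) : List ℚ) : Multiset ℚ) =
        ((inst L bins.flatten : List ℚ) : Multiset ℚ) := by
      clear h1 h2
      induction bins with
      | nil => rfl
      | cons b bins ih =>
        have e : inst L (b :: bins).flatten = inst L b ++ inst L bins.flatten := by
          unfold inst; rw [List.flatten_cons, List.map_append]
        rw [e, ← Multiset.coe_add, ← ih]
        exact Fin.sum_univ_succ _
    rw [h3]
    unfold inst
    rw [← Multiset.map_coe, ← Multiset.map_coe, h2]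
  · rw [Multiset.sum_coe, inst_sum, div_le_one (by exact_mod_cast hL)]
    exact_mod_cast h1 _ (List.get_mem _ _)

theorem OPT_le {I : List ℚ} {k : ℕ} (h : Packable I k) : OPT I ≤ k := Nat.sInf_le h

/-- all numbers of bins -/
theorem ext_main {L N D V : ℕ} (hL : 0 < L) (hD : 0 < D) (s : List ℕ) (ps : List (ℕ × List ℕ))
    (bins : List (List ℕ))
    (hs : ∀ a ∈ s, 0 < a ∧ a < L)
    (h1 : ∀ p ∈ ps, p.2.sum ≤ L)
    (h2 : ∀ a ∈ s, D * s.count a ≤ (ps.map (fun p => p.1 * p.2.count a)).sum)
    (h3 : (ps.map (fun p => p.1)).sum = V)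
    (h4 : ¬ Packable (inst L s) N)
    (h5 : ∀ b ∈ bins, b.sum ≤ L) (h6 : (bins.flatten : Multiset ℕ) = (s : Multiset ℕ))
    (h7 : bins.length = N + 1) (m : ℕ) :
    ∃ I : List ℚ, (∀ a ∈ I, 0 < a ∧ a ≤ 1) ∧ OPT I = N + 1 + m ∧
      LP I ≤ (V : ℝ) / D + m := by
  have hle : ∀ a ∈ inst L (List.replicate m L ++ s), 0 < a ∧ a ≤ 1 := by
    intro a ha
    unfold inst at ha
    rw [List.mem_map] at ha
    obtain ⟨x, hx, rfl⟩ := ha
    have hx0 : 0 < x ∧ x ≤ L := by
      rw [List.mem_append] at hx
      rcases hx with hx | hx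
      · rw [List.eq_of_mem_replicate hx]; exact ⟨hL, le_rfl⟩
      · exact ⟨(hs x hx).1, (hs x hx).2.le⟩
    have h1 : (0 : ℚ) < x := by exact_mod_cast hx0.1
    have h2 : (0 : ℚ) < L := by exact_mod_cast hL
    refine ⟨by positivity, ?_⟩
    rw [div_le_one h2]
    exact_mod_cast hx0.2
  refine ⟨inst L (List.replicate m L ++ s), hle, ?_, ?_⟩
  · apply le_antisymm
    · have := packable_of_bins hL bins h5 h6
      rw [h7] at this
      exact OPT_le (packable_ext hL this m)
    · have h8 := lt_OPT _ (fun a ha => (hle a ha).2)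
        (not_packable_ext hL (fun a ha => (hs a ha).1) h4 m)
      omega
  · have h8 := Vale.Agent.P302.LP_le hL hD (List.replicate m L ++ s) ((D * m, [L]) :: ps) (by
      intro p hp
      rw [List.mem_cons] at hp
      rcases hp with rfl | hp
      · simp
      · exact h1 p hp) (by
      intro a ha
      rw [List.count_append, List.map_cons, List.sum_cons]
      by_cases haL : a = L
      · subst haL
        have h9 : s.count a = 0 := by
          rw [List.count_eq_zero]
          intro h10
          exact absurd (hs a h10).2 (lt_irrefl _)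
        rw [h9, List.count_replicate_self]
        simp
      · have h9 : (List.replicate m L).count a = 0 := by
          rw [List.count_eq_zero]
          intro h10
          exact haL (List.eq_of_mem_replicate h10)
        have has : a ∈ s := by
          rw [List.mem_append] at ha
          rcases ha with ha | ha
          · exact absurd (List.eq_of_mem_replicate ha) haL
          · exact ha
        rw [h9, zero_add]
        exact (h2 a has).trans (Nat.le_add_left _ _))
    rw [List.map_cons, List.sum_cons, h3] at h8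
    refine h8.trans (le_of_eq ?_)
    have hD' : (D : ℝ) ≠ 0 := by exact_mod_cast hD.ne'
    push_cast
    field_simp
    ring

end Vale.Agent.P302
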