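import Vale.Agent.P302.Multi2
import Vale.Agent.P302.Ext

/-!
The instance: 51 items, not packable into 17 bins of capacity 360300; fractional packing of value
1272 / 76. Generated data.
-/

namespace Vale.Agent.P302.DataC

/-- sizes, in units of 1/360300 -/
def sizes : List ℕ :=
  [284398, 284396, 284391, 205000, 204332, 204330, 204325, 180312, 180310, 180305, 134000,
    125064, 125037, 125034, 125026, 125023, 125013, 125010, 121000, 120112, 120109, 120101,
    120099, 120094, 120082, 110254, 110252, 110247, 94000, 90035, 90008, 90005, 89997, 89994,
    89984, 89981, 79000, 78025, 77998, 77995, 77987, 77984, 77974, 77971, 37992, 37965, 37962,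
    37954, 37951, 37941, 37938]

/-- the fractional packing, weights in units of 1/76 -/
def frac : List (ℕ × List ℕ) :=
  [(38, [204325, 77987, 77987]), (38, [180305, 90008, 89984]), (8, [121000, 121000, 78025,
    37992]), (38, [180312, 89994, 89994]), (19, [205000, 79000, 37992, 37992]), (27, [125064,
    79000, 78025, 78025]), (38, [204332, 77984, 77984]), (38, [125034, 125013, 110252]), (19,
    [134000, 125064, 94000]), (38, [284396, 37962, 37941]), (38, [284396, 37965, 37938]), (38,
    [125023, 125023, 110254]), (38, [120112, 120101, 120082]), (38, [120101, 120099, 120099]),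
    (38, [120112, 120094, 120094]), (38, [204332, 77995, 77971]), (38, [125037, 125013, 110247]),
    (30, [121000, 121000, 79000, 37992]), (38, [120109, 120109, 120082]), (38, [125026, 125026,
    110247]), (19, [90035, 90035, 90035, 90035]), (38, [204330, 77995, 77974]), (15, [125064,
    125064, 94000]), (57, [205000, 134000]), (38, [284398, 37962, 37938]), (38, [180310, 90008,
    89981]), (38, [204325, 77998, 77974]), (38, [180310, 90005, 89984]), (38, [284391, 37965,
    37941]), (38, [204330, 77998, 77971]), (38, [125034, 125010, 110254]), (38, [180305, 89997,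
    89997]), (38, [125037, 125010, 110252]), (14, [94000, 94000, 94000, 78025]), (38, [284391,
    37954, 37954]), (38, [180312, 90005, 89981]), (38, [284398, 37951, 37951])]

/-- thresholds -/
def ths : List ℕ :=
  [284391, 205000, 204325, 180305, 134000, 125064, 125010, 121000, 120082, 110247, 94000, 90035,
    89981, 79000, 78025, 77971, 37992, 37938]

/-- classes with weights, in units of 1/48 -/
def cls : List (ℕ × ℕ) :=
  [(284391, 44), (204325, 30), (205000, 30), (180305, 26), (125010, 18), (125064, 18), (120082,
    17), (121000, 17), (134000, 18), (89981, 12), (90035, 12), (77971, 10), (78025, 10), (94000,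
    12), (79000, 10), (110247, 13), (37938, 4), (37992, 4)]

/-- patterns with excess weight -/
def pats : List (List ℕ × ℕ) :=
  [([120082, 120082, 120082], 3), ([77971, 77971, 204325], 2), ([89981, 89981, 180305], 2),
    ([110247, 125010, 125010], 1), ([37938, 37938, 284391], 4)]

/-- gadgets: pattern, copies, excess weight -/
def gads : List (List ℕ × ℕ × ℕ) :=
  [([120082, 120082, 120082], 2, 3), ([77971, 77971, 204325], 3, 2), ([89981, 89981, 180305], 3,
    2), ([110247, 125010, 125010], 3, 1), ([37938, 37938, 284391], 3, 4)]

/-- cases -/
def cases : List (List ℕ) :=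
  [[1, 2, 2, 1, 2], [1, 2, 2, 2, 2]]

set_option maxRecDepth 100000 in
theorem frac_fits : ∀ p ∈ frac, p.2.sum ≤ 360300 := by decide +kernel

set_option maxRecDepth 100000 in
theorem frac_covers : ∀ a ∈ sizes, 76 * sizes.count a ≤
    (frac.map (fun p => p.1 * p.2.count a)).sum := by decide +kernel

theorem frac_value : (frac.map (fun p => p.1)).sum = 1272 := by decide +kernel

theorem LP_le : LP (inst 360300 sizes) ≤ 1272 / 76 := by
  have h := Vale.Agent.P302.LP_le (L := 360300) (D := 76) (by norm_num) (by norm_num) sizes frac frac_fits
    frac_covers
  rw [frac_value] at h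
  exact_mod_cast h

set_option maxRecDepth 100000 in
theorem sizes_pos : ∀ a ∈ sizes, 0 < a ∧ a < 360300 := by decide +kernel

/-- a packing into 18 bins -/
def bins : List (List ℕ) :=
  [[284398, 37992], [284396, 37965, 37938], [284391, 37962, 37941], [205000, 134000], [204332,
    125064], [204330, 125037], [204325, 125034], [180312, 125026, 37954], [180310, 125023, 37951],
    [180305, 125013], [125010, 121000, 110254], [120112, 120109, 110252], [120101, 120099,
    120094], [120082, 110247, 94000], [90035, 90008, 90005, 89997], [89994, 89984, 89981, 79000],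
    [78025, 77998, 77995, 77987], [77984, 77974, 77971]]

set_option maxRecDepth 100000 in
theorem bins_fit : ∀ b ∈ bins, b.sum ≤ 360300 := by decide +kernel

set_option maxRecDepth 100000 in
theorem bins_perm : (bins.flatten : Multiset ℕ) = (sizes : Multiset ℕ) :=
  samePerm_eq (by decide +kernel)

theorem bins_length : bins.length = 18 := by decide +kernel

theorem gad0 : ¬ Pk 360300 [] 2 ([120112, 120109, 120101, 120099, 120094, 120082] : List ℕ) :=
  checkF_sound (items := [(120112, 32), (120109, 16), (120101, 8), (120099, 4), (120094, 2), (120082, 1)])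
    (T := .nil) (Ts := []) (by decide +kernel)

theorem gad1 : ¬ Pk 360300 [] 3 ([204332, 204330, 204325, 77998, 77995, 77987, 77984, 77974, 77971] : List ℕ) :=
  checkF_sound (items := [(204332, 256), (204330, 128), (204325, 64), (77998, 32), (77995, 16), (77987, 8), (77984, 4),
    (77974, 2), (77971, 1)])
    (T := (.node .nil 238 .nil)) (Ts := [.nil]) (by decide +kernel)

theorem gad2 : ¬ Pk 360300 [] 3 ([180312, 180310, 180305, 90008, 90005, 89997, 89994, 89984, 89981] : List ℕ) :=
  checkF_sound (items := [(180312, 256), (180310, 128), (180305, 64), (90008, 32), (90005, 16), (89997, 8), (89994, 4),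
    (89984, 2), (89981, 1)])
    (T := (.node .nil 238 .nil)) (Ts := [.nil]) (by decide +kernel)

theorem gad3 : ¬ Pk 360300 [] 3 ([125037, 125034, 125026, 125023, 125013, 125010, 110254, 110252, 110247] : List ℕ) :=
  checkF_sound (items := [(125037, 256), (125034, 128), (125026, 64), (125023, 32), (125013, 16), (125010, 8), (110254,
    4), (110252, 2), (110247, 1)])
    (T := (.node (.node .nil 238 .nil) 245 .nil)) (Ts := [.nil]) (by decide +kernel)

theorem gad4 : ¬ Pk 360300 [] 3 ([284398, 284396, 284391, 37965, 37962, 37954, 37951, 37941, 37938] : List ℕ) :=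
  checkF_sound (items := [(284398, 256), (284396, 128), (284391, 64), (37965, 32), (37962, 16), (37954, 8), (37951, 4),
    (37941, 2), (37938, 1)])
    (T := (.node .nil 238 .nil)) (Ts := [.nil]) (by decide +kernel)

set_option maxRecDepth 100000 in
theorem gads_ok : ∀ g ∈ gads, ¬ Pk 360300 [] g.2.1
    ((sizes.filter (fun a => decide (rnd ths a ∈ g.1)) : List ℕ) : Multiset ℕ) := by
  intro g hg
  simp only [gads, List.mem_cons, List.not_mem_nil, or_false] at hg
  rcases hg with rfl | rfl | rfl | rfl | rfl
  · have h : sizes.filter (fun a => decide (rnd ths a ∈ [120082, 120082, 120082])) =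
        [120112, 120109, 120101, 120099, 120094, 120082] := by decide +kernel
    rw [h]; exact gad0
  · have h : sizes.filter (fun a => decide (rnd ths a ∈ [77971, 77971, 204325])) =
        [204332, 204330, 204325, 77998, 77995, 77987, 77984, 77974, 77971] := by decide +kernel
    rw [h]; exact gad1
  · have h : sizes.filter (fun a => decide (rnd ths a ∈ [89981, 89981, 180305])) =
        [180312, 180310, 180305, 90008, 90005, 89997, 89994, 89984, 89981] := by decide +kernel
    rw [h]; exact gad2
  · have h : sizes.filter (fun a => decide (rnd ths a ∈ [110247, 125010, 125010])) =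
        [125037, 125034, 125026, 125023, 125013, 125010, 110254, 110252, 110247] := by decide +kernel
    rw [h]; exact gad3
  · have h : sizes.filter (fun a => decide (rnd ths a ∈ [37938, 37938, 284391])) =
        [284398, 284396, 284391, 37965, 37962, 37954, 37951, 37941, 37938] := by decide +kernel
    rw [h]; exact gad4

end Vale.Agent.P302.DataC
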