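import Vale.Agent.P302.DataC

/-! The case (1, 2, 2, 1, 2) of the search. Generated data. -/

namespace Vale.Agent.P302.DataC

/-- blocks (size, weight, key, number) -/
def blk0 : List (ℕ × ℕ × ℕ × ℕ) :=
  [(284391, 44, 3317760, 1), (205000, 30, 1658880, 1), (204325, 30, 829440, 1), (180305, 26,
    414720, 1), (134000, 18, 207360, 1), (125064, 18, 103680, 1), (125010, 18, 20736, 4), (121000,
    17, 10368, 1), (120082, 17, 2592, 3), (110247, 13, 864, 2), (94000, 12, 432, 1), (90035, 12,
    216, 1), (89981, 12, 72, 2), (79000, 10, 36, 1), (78025, 10, 18, 1), (77971, 10, 6, 2),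
    (37992, 4, 3, 1), (37938, 4, 1, 2)]

/-- not fitting into 8 bins -/
def tab0_8 : Tr :=
  (.node (.node .nil 3317756 .nil) 3317758 .nil)

/-- not fitting into 7 bins -/
def tab0_7 : Tr :=
  (.node (.node (.node (.node .nil 1451516 .nil) 1451518 .nil) 1555196 (.node .nil 1555198
    .nil)) 1638140 (.node (.node (.node .nil 1638142 .nil) 1658838 .nil) 1658856 (.node .nil
    1658868 .nil)))

/-- not fitting into 6 bins -/
def tab0_6 : Tr :=
  (.node (.node (.node (.node (.node .nil 518396 .nil) 518398 .nil) 601340 (.node .nil 601342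
    .nil)) 622038 (.node (.node .nil 622056 .nil) 622068 (.node .nil 705020 .nil))) 705022 (.node
    (.node (.node (.node .nil 725718 .nil) 725736 .nil) 725748 (.node .nil 787964 .nil)) 787966
    (.node (.node .nil 808662 .nil) 808680 (.node .nil 808692 .nil))))

/-- not fitting into 5 bins -/
def tab0_5 : Tr :=
  (.node (.node (.node (.node (.node (.node (.node .nil 82939 .nil) 82941 (.node .nil 103208
    .nil)) 103210 (.node (.node .nil 103226 .nil) 103228 (.node .nil 103238 .nil))) 103240 (.node
    (.node (.node .nil 103424 .nil) 103426 (.node .nil 103442 .nil)) 103444 (.node (.node .nil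
    103454 .nil) 103456 .nil))) 103568 (.node (.node (.node (.node .nil 103570 .nil) 103586 (.node
    .nil 103588 .nil)) 103598 (.node (.node .nil 103600 .nil) 165883 (.node .nil 165885 .nil)))
    186152 (.node (.node (.node .nil 186154 .nil) 186170 (.node .nil 186172 .nil)) 186182 (.node
    (.node .nil 186184 .nil) 186368 .nil)))) 186370 (.node (.node (.node (.node (.node .nil 186386
    .nil) 186388 (.node .nil 186398 .nil)) 186400 (.node (.node .nil 186512 .nil) 186514 (.node
    .nil 186530 .nil))) 186532 (.node (.node (.node .nil 186542 .nil) 186544 (.node .nil 206868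
    .nil)) 206880 (.node (.node .nil 206898 .nil) 206910 .nil))) 207084 (.node (.node (.node
    (.node .nil 207096 .nil) 207114 (.node .nil 207126 .nil)) 207228 (.node (.node .nil 207240
    .nil) 207258 .nil)) 207270 (.node (.node (.node .nil 269563 .nil) 269565 (.node .nil 289832
    .nil)) 289834 (.node (.node .nil 289850 .nil) 289852 .nil))))) 289862 (.node (.node (.node
    (.node (.node (.node .nil 289864 .nil) 290048 (.node .nil 290050 .nil)) 290066 (.node (.node
    .nil 290068 .nil) 290078 (.node .nil 290080 .nil))) 290192 (.node (.node (.node .nil 290194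
    .nil) 290210 (.node .nil 290212 .nil)) 290222 (.node (.node .nil 290224 .nil) 310548 .nil)))
    310560 (.node (.node (.node (.node .nil 310578 .nil) 310590 (.node .nil 310764 .nil)) 310776
    (.node (.node .nil 310794 .nil) 310806 .nil)) 310908 (.node (.node (.node .nil 310920 .nil)
    310938 (.node .nil 310950 .nil)) 352507 (.node (.node .nil 352509 .nil) 372776 .nil)))) 372778
    (.node (.node (.node (.node (.node .nil 372794 .nil) 372796 (.node .nil 372806 .nil)) 372808
    (.node (.node .nil 372992 .nil) 372994 (.node .nil 373010 .nil))) 373012 (.node (.node (.node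
    .nil 373022 .nil) 373024 (.node .nil 373136 .nil)) 373138 (.node (.node .nil 373154 .nil)
    373156 .nil))) 373166 (.node (.node (.node (.node .nil 373168 .nil) 393492 (.node .nil 393504
    .nil)) 393522 (.node (.node .nil 393534 .nil) 393708 .nil)) 393720 (.node (.node (.node .nil
    393738 .nil) 393750 (.node .nil 393852 .nil)) 393864 (.node (.node .nil 393882 .nil) 393894
    .nil))))))

/-- not fitting into 4 bins -/
def tab0_4 : Tr :=
  (.node (.node (.node (.node (.node (.node (.node (.node .nil 41035 .nil) 41037 .nil) 41251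
    (.node (.node .nil 41253 .nil) 41395 .nil)) 41397 (.node (.node (.node .nil 50971 .nil) 50973
    .nil) 58747 (.node .nil 58749 .nil))) 61520 (.node (.node (.node (.node .nil 61522 .nil) 61538
    .nil) 61540 (.node (.node .nil 61550 .nil) 61552 .nil)) 61664 (.node (.node (.node .nil 61666
    .nil) 61682 .nil) 61684 (.node .nil 61694 .nil)))) 61696 (.node (.node (.node (.node (.node
    .nil 61880 .nil) 61882 .nil) 61898 (.node (.node .nil 61900 .nil) 61910 .nil)) 61912 (.node
    (.node (.node .nil 62024 .nil) 62026 .nil) 62042 (.node .nil 62044 .nil))) 62054 (.node (.node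
    (.node (.node .nil 62056 .nil) 62143 .nil) 62145 (.node .nil 62155 .nil)) 62157 (.node (.node
    (.node .nil 62173 .nil) 62175 .nil) 71240 (.node .nil 71242 .nil))))) 71258 (.node (.node
    (.node (.node (.node (.node .nil 71260 .nil) 71270 .nil) 71272 (.node (.node .nil 71456 .nil)
    71458 .nil)) 71474 (.node (.node (.node .nil 71476 .nil) 71486 .nil) 71488 (.node .nil 71600
    .nil))) 71602 (.node (.node (.node (.node .nil 71618 .nil) 71620 .nil) 71630 (.node .nil 71632
    .nil)) 79016 (.node (.node (.node .nil 79018 .nil) 79034 .nil) 79036 (.node .nil 79046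
    .nil)))) 79048 (.node (.node (.node (.node (.node .nil 79232 .nil) 79234 .nil) 79250 (.node
    (.node .nil 79252 .nil) 79262 .nil)) 79264 (.node (.node (.node .nil 79376 .nil) 79378 .nil)
    79394 (.node .nil 79396 .nil))) 79406 (.node (.node (.node (.node .nil 79408 .nil) 82236 .nil)
    82248 (.node .nil 82266 .nil)) 82278 (.node (.node (.node .nil 82380 .nil) 82392 .nil) 82410
    (.node .nil 82422 .nil)))))) 82442 (.node (.node (.node (.node (.node (.node (.node .nil 82444
    .nil) 82596 .nil) 82608 (.node (.node .nil 82626 .nil) 82638 .nil)) 82658 (.node (.node (.node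
    .nil 82660 .nil) 82740 .nil) 82752 (.node .nil 82770 .nil))) 82782 (.node (.node (.node (.node
    .nil 82802 .nil) 82804 .nil) 91956 (.node .nil 91968 .nil)) 91986 (.node (.node (.node .nil
    91998 .nil) 92172 .nil) 92184 (.node .nil 92202 .nil)))) 92214 (.node (.node (.node (.node
    (.node .nil 92316 .nil) 92328 .nil) 92346 (.node (.node .nil 92358 .nil) 99732 .nil)) 99744
    (.node (.node (.node .nil 99762 .nil) 99774 .nil) 99948 (.node .nil 99960 .nil))) 99978 (.node
    (.node (.node (.node .nil 99990 .nil) 100092 .nil) 100104 (.node .nil 100122 .nil)) 100134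
    (.node (.node (.node .nil 123979 .nil) 123981 .nil) 124195 (.node .nil 124197 .nil))))) 124339
    (.node (.node (.node (.node (.node (.node .nil 124341 .nil) 144464 .nil) 144466 (.node (.node
    .nil 144482 .nil) 144484 .nil)) 144494 (.node (.node (.node .nil 144496 .nil) 144608 .nil)
    144610 (.node .nil 144626 .nil))) 144628 (.node (.node (.node (.node .nil 144638 .nil) 144640
    .nil) 144824 (.node .nil 144826 .nil)) 144842 (.node (.node (.node .nil 144844 .nil) 144854
    .nil) 144856 (.node .nil 144968 .nil)))) 144970 (.node (.node (.node (.node (.node .nil 144986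
    .nil) 144988 .nil) 144998 (.node (.node .nil 145000 .nil) 165180 .nil)) 165192 (.node (.node
    (.node .nil 165210 .nil) 165222 .nil) 165324 (.node .nil 165336 .nil))) 165354 (.node (.node
    (.node (.node .nil 165366 .nil) 165540 .nil) 165552 (.node .nil 165570 .nil)) 165582 (.node
    (.node (.node .nil 165684 .nil) 165696 .nil) 165714 (.node .nil 165726 .nil)))))))

/-- not fitting into 3 bins -/
def tab0_3 : Tr :=
  (.node (.node (.node (.node (.node (.node (.node (.node .nil 9067 .nil) 9069 (.node .nil 9283
    .nil)) 9285 (.node (.node .nil 9427 .nil) 9429 (.node .nil 16843 .nil))) 16845 (.node (.node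
    (.node .nil 17059 .nil) 17061 (.node .nil 17203 .nil)) 17205 (.node (.node .nil 19976 .nil)
    19978 .nil))) 19994 (.node (.node (.node (.node .nil 19996 .nil) 20006 (.node .nil 20008
    .nil)) 20120 (.node (.node .nil 20122 .nil) 20138 (.node .nil 20140 .nil))) 20150 (.node
    (.node (.node .nil 20152 .nil) 20239 (.node .nil 20241 .nil)) 20251 (.node (.node .nil 20253
    .nil) 20269 .nil)))) 20271 (.node (.node (.node (.node (.node .nil 20336 .nil) 20338 (.node
    .nil 20354 .nil)) 20356 (.node (.node .nil 20366 .nil) 20368 (.node .nil 20455 .nil))) 20457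
    (.node (.node (.node .nil 20467 .nil) 20469 (.node .nil 20485 .nil)) 20487 (.node (.node .nil
    20599 .nil) 20601 .nil))) 20611 (.node (.node (.node (.node .nil 20613 .nil) 20629 (.node .nil
    20631 .nil)) 26779 (.node (.node .nil 26781 .nil) 29552 (.node .nil 29554 .nil))) 29570 (.node
    (.node (.node .nil 29572 .nil) 29582 (.node .nil 29584 .nil)) 29696 (.node (.node .nil 29698
    .nil) 29714 .nil))))) 29716 (.node (.node (.node (.node (.node (.node .nil 29726 .nil) 29728
    (.node .nil 29912 .nil)) 29914 (.node (.node .nil 29930 .nil) 29932 (.node .nil 29942 .nil)))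
    29944 (.node (.node (.node .nil 30056 .nil) 30058 (.node .nil 30074 .nil)) 30076 (.node (.node
    .nil 30086 .nil) 30088 .nil))) 30175 (.node (.node (.node (.node .nil 30177 .nil) 30187 (.node
    .nil 30189 .nil)) 30205 (.node (.node .nil 30207 .nil) 34555 (.node .nil 34557 .nil))) 37328
    (.node (.node (.node .nil 37330 .nil) 37346 (.node .nil 37348 .nil)) 37358 (.node (.node .nil
    37360 .nil) 37472 .nil)))) 37474 (.node (.node (.node (.node (.node .nil 37490 .nil) 37492
    (.node .nil 37502 .nil)) 37504 (.node (.node .nil 37688 .nil) 37690 (.node .nil 37706 .nil)))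
    37708 (.node (.node (.node .nil 37718 .nil) 37720 (.node .nil 37832 .nil)) 37834 (.node (.node
    .nil 37850 .nil) 37852 .nil))) 37862 (.node (.node (.node (.node .nil 37864 .nil) 37951 (.node
    .nil 37953 .nil)) 37963 (.node (.node .nil 37965 .nil) 37981 .nil)) 37983 (.node (.node (.node
    .nil 40692 .nil) 40704 (.node .nil 40722 .nil)) 40734 (.node (.node .nil 40754 .nil) 40756
    .nil)))))) 40836 (.node (.node (.node (.node (.node (.node (.node .nil 40848 .nil) 40866
    (.node .nil 40878 .nil)) 40898 (.node (.node .nil 40900 .nil) 41052 (.node .nil 41064 .nil)))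
    41082 (.node (.node (.node .nil 41094 .nil) 41114 (.node .nil 41116 .nil)) 41258 (.node (.node
    .nil 41260 .nil) 47048 .nil))) 47050 (.node (.node (.node (.node .nil 47066 .nil) 47068 (.node
    .nil 47078 .nil)) 47080 (.node (.node .nil 47264 .nil) 47266 (.node .nil 47282 .nil))) 47284
    (.node (.node (.node .nil 47294 .nil) 47296 (.node .nil 47408 .nil)) 47410 (.node (.node .nil
    47426 .nil) 47428 .nil)))) 47438 (.node (.node (.node (.node (.node .nil 47440 .nil) 50268
    (.node .nil 50280 .nil)) 50298 (.node (.node .nil 50310 .nil) 50412 (.node .nil 50424 .nil)))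
    50442 (.node (.node (.node .nil 50454 .nil) 50474 (.node .nil 50476 .nil)) 50628 (.node (.node
    .nil 50640 .nil) 50658 .nil))) 50670 (.node (.node (.node (.node .nil 50690 .nil) 50692 (.node
    .nil 50772 .nil)) 50784 (.node (.node .nil 50802 .nil) 50814 .nil)) 50834 (.node (.node (.node
    .nil 50836 .nil) 54824 (.node .nil 54826 .nil)) 54842 (.node (.node .nil 54844 .nil) 54854
    .nil))))) 54856 (.node (.node (.node (.node (.node (.node .nil 55040 .nil) 55042 (.node .nil
    55058 .nil)) 55060 (.node (.node .nil 55070 .nil) 55072 (.node .nil 55184 .nil))) 55186 (.node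
    (.node (.node .nil 55202 .nil) 55204 (.node .nil 55214 .nil)) 55216 (.node (.node .nil 58044
    .nil) 58056 .nil))) 58074 (.node (.node (.node (.node .nil 58086 .nil) 58188 (.node .nil 58200
    .nil)) 58218 (.node (.node .nil 58230 .nil) 58250 (.node .nil 58252 .nil))) 58404 (.node
    (.node (.node .nil 58416 .nil) 58434 (.node .nil 58446 .nil)) 58466 (.node (.node .nil 58468
    .nil) 58548 .nil)))) 58560 (.node (.node (.node (.node (.node .nil 58578 .nil) 58590 (.node
    .nil 58610 .nil)) 58612 (.node (.node .nil 67764 .nil) 67776 (.node .nil 67794 .nil))) 67806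
    (.node (.node (.node .nil 67980 .nil) 67992 (.node .nil 68010 .nil)) 68022 (.node (.node .nil
    68124 .nil) 68136 .nil))) 68154 (.node (.node (.node (.node .nil 68166 .nil) 75540 (.node .nil
    75552 .nil)) 75570 (.node (.node .nil 75582 .nil) 75756 .nil)) 75768 (.node (.node (.node .nil
    75786 .nil) 75798 (.node .nil 75900 .nil)) 75912 (.node (.node .nil 75930 .nil) 75942
    .nil)))))))

/-- not fitting into 2 bins -/
def tab0_2 : Tr :=
  (.node (.node (.node (.node (.node (.node (.node (.node .nil 3846 .nil) 3864 .nil) 3876 (.node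
    (.node .nil 4062 .nil) 4080 .nil)) 4092 (.node (.node (.node .nil 4206 .nil) 4224 .nil) 4236
    (.node (.node .nil 5360 .nil) 5362 .nil))) 5378 (.node (.node (.node (.node .nil 5380 .nil)
    5390 .nil) 5392 (.node (.node .nil 5504 .nil) 5506 .nil)) 5522 (.node (.node (.node .nil 5524
    .nil) 5534 .nil) 5536 (.node .nil 5720 .nil)))) 5722 (.node (.node (.node (.node (.node .nil
    5738 .nil) 5740 .nil) 5750 (.node (.node .nil 5752 .nil) 5864 .nil)) 5866 (.node (.node (.node
    .nil 5882 .nil) 5884 .nil) 5894 (.node (.node .nil 5896 .nil) 5983 .nil))) 5985 (.node (.node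
    (.node (.node .nil 5995 .nil) 5997 .nil) 6013 (.node (.node .nil 6015 .nil) 6997 .nil)) 6999
    (.node (.node (.node .nil 7009 .nil) 7011 .nil) 7027 (.node .nil 7029 .nil))))) 7039 (.node
    (.node (.node (.node (.node (.node .nil 7041 .nil) 7141 .nil) 7143 (.node (.node .nil 7153
    .nil) 7155 .nil)) 7171 (.node (.node (.node .nil 7173 .nil) 7183 .nil) 7185 (.node (.node .nil
    7272 .nil) 7357 .nil))) 7359 (.node (.node (.node (.node .nil 7369 .nil) 7371 .nil) 7387
    (.node (.node .nil 7389 .nil) 7399 .nil)) 7401 (.node (.node (.node .nil 7488 .nil) 7632 .nil)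
    8724 (.node .nil 8736 .nil)))) 8754 (.node (.node (.node (.node (.node .nil 8766 .nil) 8786
    .nil) 8788 (.node (.node .nil 8868 .nil) 8880 .nil)) 8898 (.node (.node (.node .nil 8910 .nil)
    8930 .nil) 8932 (.node .nil 9084 .nil))) 9096 (.node (.node (.node (.node .nil 9114 .nil) 9126
    .nil) 9146 (.node (.node .nil 9148 .nil) 9290 .nil)) 9292 (.node (.node (.node .nil 13136
    .nil) 13138 .nil) 13154 (.node .nil 13156 .nil)))))) 13166 (.node (.node (.node (.node (.node
    (.node (.node .nil 13168 .nil) 13280 .nil) 13282 (.node (.node .nil 13298 .nil) 13300 .nil))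
    13310 (.node (.node (.node .nil 13312 .nil) 13496 .nil) 13498 (.node (.node .nil 13514 .nil)
    13516 .nil))) 13526 (.node (.node (.node (.node .nil 13528 .nil) 13640 .nil) 13642 (.node
    (.node .nil 13658 .nil) 13660 .nil)) 13670 (.node (.node (.node .nil 13672 .nil) 13759 .nil)
    13761 (.node .nil 13771 .nil)))) 13773 (.node (.node (.node (.node (.node .nil 13789 .nil)
    13791 .nil) 16500 (.node (.node .nil 16512 .nil) 16530 .nil)) 16542 (.node (.node (.node .nil
    16562 .nil) 16564 .nil) 16644 (.node .nil 16656 .nil))) 16674 (.node (.node (.node (.node .nil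
    16686 .nil) 16706 .nil) 16708 (.node (.node .nil 16860 .nil) 16872 .nil)) 16890 (.node (.node
    (.node .nil 16902 .nil) 16922 .nil) 16924 (.node .nil 17066 .nil))))) 17068 (.node (.node
    (.node (.node (.node (.node .nil 26076 .nil) 26088 .nil) 26106 (.node (.node .nil 26118 .nil)
    26220 .nil)) 26232 (.node (.node (.node .nil 26250 .nil) 26262 .nil) 26282 (.node (.node .nil
    26284 .nil) 26436 .nil))) 26448 (.node (.node (.node (.node .nil 26466 .nil) 26478 .nil) 26498
    (.node (.node .nil 26500 .nil) 26580 .nil)) 26592 (.node (.node (.node .nil 26610 .nil) 26622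
    .nil) 26642 (.node .nil 26644 .nil)))) 33852 (.node (.node (.node (.node (.node .nil 33864
    .nil) 33882 .nil) 33894 (.node (.node .nil 33996 .nil) 34008 .nil)) 34026 (.node (.node (.node
    .nil 34038 .nil) 34058 .nil) 34060 (.node .nil 34212 .nil))) 34224 (.node (.node (.node (.node
    .nil 34242 .nil) 34254 .nil) 34274 (.node (.node .nil 34276 .nil) 34356 .nil)) 34368 (.node
    (.node (.node .nil 34386 .nil) 34398 .nil) 34418 (.node .nil 34420 .nil)))))))

/-- not fitting into 1 bins -/
def tab0_1 : Tr :=
  (.node (.node (.node (.node (.node (.node .nil 157 .nil) 159 .nil) 169 (.node (.node .nil 171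
    .nil) 187 .nil)) 189 (.node (.node (.node .nil 199 .nil) 201 .nil) 301 (.node .nil 303 .nil)))
    313 (.node (.node (.node (.node .nil 315 .nil) 331 .nil) 333 (.node (.node .nil 343 .nil) 345
    .nil)) 517 (.node (.node (.node .nil 519 .nil) 529 .nil) 531 (.node .nil 547 .nil)))) 549
    (.node (.node (.node (.node (.node .nil 559 .nil) 561 .nil) 661 (.node (.node .nil 663 .nil)
    673 .nil)) 675 (.node (.node (.node .nil 691 .nil) 693 .nil) 703 (.node .nil 705 .nil))) 792
    (.node (.node (.node (.node .nil 1806 .nil) 1818 .nil) 1836 (.node .nil 1950 .nil)) 1962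
    (.node (.node (.node .nil 1980 .nil) 2166 .nil) 2178 (.node .nil 2196 .nil)))))

set_option maxRecDepth 100000 in
theorem case0 : Settled 360300 17 48 sizes (rnd ths) (look cls) gads [1, 2, 2, 1, 2] :=
  settled_of_check (items := blk0) (T := tab0_8)
    (Ts := [tab0_7, tab0_6, tab0_5, tab0_4, tab0_3, tab0_2, tab0_1])
    (by decide +kernel) (by decide +kernel) (by decide +kernel)

end Vale.Agent.P302.DataC
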