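import Vale.Agent.P302.DataC

/-! The case (1, 2, 2, 2, 2) of the search. Generated data. -/

namespace Vale.Agent.P302.DataC

/-- blocks (size, weight, key, number) -/
def blk1 : List (ℕ × ℕ × ℕ × ℕ) :=
  [(284391, 44, 1327104, 1), (205000, 30, 663552, 1), (204325, 30, 331776, 1), (180305, 26,
    165888, 1), (134000, 18, 82944, 1), (125064, 18, 41472, 1), (125010, 18, 13824, 2), (121000,
    17, 6912, 1), (120082, 17, 1728, 3), (110247, 13, 864, 1), (94000, 12, 432, 1), (90035, 12,
    216, 1), (89981, 12, 72, 2), (79000, 10, 36, 1), (78025, 10, 18, 1), (77971, 10, 6, 2),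
    (37992, 4, 3, 1), (37938, 4, 1, 2)]

/-- not fitting into 7 bins -/
def tab1_7 : Tr :=
  (.node (.node .nil 1327100 .nil) 1327102 .nil)

/-- not fitting into 6 bins -/
def tab1_6 : Tr :=
  (.node (.node (.node (.node .nil 580604 .nil) 580606 (.node .nil 622076 .nil)) 622078 (.node
    (.node .nil 649724 .nil) 649726 (.node .nil 656636 .nil))) 656638 (.node (.node (.node .nil
    661820 .nil) 661822 (.node .nil 662683 .nil)) 662685 (.node (.node .nil 663510 .nil) 663528
    (.node .nil 663540 .nil))))

/-- not fitting into 5 bins -/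
def tab1_5 : Tr :=
  (.node (.node (.node (.node (.node (.node .nil 207356 .nil) 207358 .nil) 235004 (.node (.node
    .nil 235006 .nil) 241916 .nil)) 241918 (.node (.node (.node .nil 247100 .nil) 247102 .nil)
    247963 (.node .nil 247965 .nil))) 248790 (.node (.node (.node (.node .nil 248808 .nil) 248820
    .nil) 276476 (.node .nil 276478 .nil)) 283388 (.node (.node (.node .nil 283390 .nil) 288572
    .nil) 288574 (.node .nil 289435 .nil)))) 289437 (.node (.node (.node (.node (.node .nil 290262
    .nil) 290280 .nil) 290292 (.node (.node .nil 304124 .nil) 304126 .nil)) 311036 (.node (.node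
    (.node .nil 311038 .nil) 316220 .nil) 316222 (.node .nil 317083 .nil))) 317085 (.node (.node
    (.node (.node .nil 317910 .nil) 317928 .nil) 317940 (.node .nil 324822 .nil)) 324840 (.node
    (.node (.node .nil 324852 .nil) 330006 .nil) 330024 (.node .nil 330036 .nil)))))

/-- not fitting into 4 bins -/
def tab1_4 : Tr :=
  (.node (.node (.node (.node (.node (.node (.node (.node (.node .nil 27643 .nil) 27645 .nil)
    34555 (.node (.node .nil 34557 .nil) 39739 .nil)) 39741 (.node (.node (.node .nil 40602 .nil)
    41000 .nil) 41002 (.node .nil 41018 .nil))) 41020 (.node (.node (.node (.node .nil 41030 .nil)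
    41032 .nil) 41216 (.node .nil 41218 .nil)) 41234 (.node (.node (.node .nil 41236 .nil) 41246
    .nil) 41248 (.node .nil 41360 .nil)))) 41362 (.node (.node (.node (.node (.node .nil 41378
    .nil) 41380 .nil) 41390 (.node .nil 41392 .nil)) 55291 (.node (.node (.node .nil 55293 .nil)
    62203 .nil) 62205 (.node .nil 67387 .nil))) 67389 (.node (.node (.node (.node .nil 68250 .nil)
    68648 .nil) 68650 (.node .nil 68666 .nil)) 68668 (.node (.node (.node .nil 68678 .nil) 68680
    .nil) 68864 (.node .nil 68866 .nil))))) 68882 (.node (.node (.node (.node (.node (.node .nil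
    68884 .nil) 68894 .nil) 68896 (.node .nil 69008 .nil)) 69010 (.node (.node (.node .nil 69026
    .nil) 69028 .nil) 69038 (.node .nil 69040 .nil))) 75560 (.node (.node (.node (.node .nil 75562
    .nil) 75578 .nil) 75580 (.node .nil 75590 .nil)) 75592 (.node (.node (.node .nil 75776 .nil)
    75778 .nil) 75794 (.node .nil 75796 .nil)))) 75806 (.node (.node (.node (.node (.node .nil
    75808 .nil) 75920 .nil) 75922 (.node .nil 75938 .nil)) 75940 (.node (.node (.node .nil 75950
    .nil) 75952 .nil) 80744 (.node .nil 80746 .nil))) 80762 (.node (.node (.node (.node .nil 80764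
    .nil) 80774 .nil) 80776 (.node .nil 80960 .nil)) 80962 (.node (.node (.node .nil 80978 .nil)
    80980 .nil) 80990 (.node .nil 80992 .nil)))))) 81104 (.node (.node (.node (.node (.node (.node
    (.node .nil 81106 .nil) 81122 .nil) 81124 (.node .nil 81134 .nil)) 81136 (.node (.node (.node
    .nil 81607 .nil) 81609 .nil) 81625 (.node .nil 81627 .nil))) 81637 (.node (.node (.node (.node
    .nil 81639 .nil) 81823 .nil) 81825 (.node .nil 81841 .nil)) 81843 (.node (.node (.node .nil
    81853 .nil) 81855 .nil) 81967 (.node .nil 81969 .nil)))) 81985 (.node (.node (.node (.node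
    (.node .nil 81987 .nil) 81997 .nil) 81999 (.node .nil 82452 .nil)) 82464 (.node (.node (.node
    .nil 82482 .nil) 82494 .nil) 82668 (.node .nil 82680 .nil))) 82698 (.node (.node (.node (.node
    .nil 82710 .nil) 82812 .nil) 82824 (.node .nil 82842 .nil)) 82854 (.node (.node (.node .nil
    96763 .nil) 96765 .nil) 103675 (.node .nil 103677 .nil))))) 108859 (.node (.node (.node (.node
    (.node (.node .nil 108861 .nil) 109722 .nil) 110120 (.node .nil 110122 .nil)) 110138 (.node
    (.node (.node .nil 110140 .nil) 110150 .nil) 110152 (.node .nil 110336 .nil))) 110338 (.node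
    (.node (.node (.node .nil 110354 .nil) 110356 .nil) 110366 (.node .nil 110368 .nil)) 110480
    (.node (.node (.node .nil 110482 .nil) 110498 .nil) 110500 (.node .nil 110510 .nil)))) 110512
    (.node (.node (.node (.node (.node .nil 117032 .nil) 117034 .nil) 117050 (.node .nil 117052
    .nil)) 117062 (.node (.node (.node .nil 117064 .nil) 117248 .nil) 117250 (.node .nil 117266
    .nil))) 117268 (.node (.node (.node (.node .nil 117278 .nil) 117280 .nil) 117392 (.node .nil
    117394 .nil)) 117410 (.node (.node (.node .nil 117412 .nil) 117422 .nil) 117424 (.node .nil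
    122216 .nil))))))) 122218 (.node (.node (.node (.node (.node (.node (.node (.node .nil 122234
    .nil) 122236 .nil) 122246 (.node .nil 122248 .nil)) 122432 (.node (.node (.node .nil 122434
    .nil) 122450 .nil) 122452 (.node .nil 122462 .nil))) 122464 (.node (.node (.node (.node .nil
    122576 .nil) 122578 .nil) 122594 (.node .nil 122596 .nil)) 122606 (.node (.node (.node .nil
    122608 .nil) 123079 .nil) 123081 (.node .nil 123097 .nil)))) 123099 (.node (.node (.node
    (.node (.node .nil 123109 .nil) 123111 .nil) 123295 (.node .nil 123297 .nil)) 123313 (.node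
    (.node (.node .nil 123315 .nil) 123325 .nil) 123327 (.node .nil 123439 .nil))) 123441 (.node
    (.node (.node (.node .nil 123457 .nil) 123459 .nil) 123469 (.node .nil 123471 .nil)) 123924
    (.node (.node (.node .nil 123936 .nil) 123954 .nil) 123966 (.node .nil 124140 .nil))))) 124152
    (.node (.node (.node (.node (.node (.node .nil 124170 .nil) 124182 .nil) 124284 (.node .nil
    124296 .nil)) 124314 (.node (.node (.node .nil 124326 .nil) 131323 .nil) 131325 (.node .nil
    136507 .nil))) 136509 (.node (.node (.node (.node .nil 137370 .nil) 137768 .nil) 137770 (.node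
    .nil 137786 .nil)) 137788 (.node (.node (.node .nil 137798 .nil) 137800 .nil) 137984 (.node
    .nil 137986 .nil)))) 138002 (.node (.node (.node (.node (.node .nil 138004 .nil) 138014 .nil)
    138016 (.node .nil 138128 .nil)) 138130 (.node (.node (.node .nil 138146 .nil) 138148 .nil)
    138158 (.node .nil 138160 .nil))) 144680 (.node (.node (.node (.node .nil 144682 .nil) 144698
    .nil) 144700 (.node .nil 144710 .nil)) 144712 (.node (.node (.node .nil 144896 .nil) 144898
    .nil) 144914 (.node .nil 144916 .nil)))))) 144926 (.node (.node (.node (.node (.node (.node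
    (.node .nil 144928 .nil) 145040 .nil) 145042 (.node .nil 145058 .nil)) 145060 (.node (.node
    (.node .nil 145070 .nil) 145072 .nil) 149864 (.node .nil 149866 .nil))) 149882 (.node (.node
    (.node (.node .nil 149884 .nil) 149894 .nil) 149896 (.node .nil 150080 .nil)) 150082 (.node
    (.node (.node .nil 150098 .nil) 150100 .nil) 150110 (.node .nil 150112 .nil)))) 150224 (.node
    (.node (.node (.node (.node .nil 150226 .nil) 150242 .nil) 150244 (.node .nil 150254 .nil))
    150256 (.node (.node (.node .nil 150727 .nil) 150729 .nil) 150745 (.node .nil 150747 .nil)))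
    150757 (.node (.node (.node (.node .nil 150759 .nil) 150943 .nil) 150945 (.node .nil 150961
    .nil)) 150963 (.node (.node (.node .nil 150973 .nil) 150975 .nil) 151087 (.node .nil 151089
    .nil))))) 151105 (.node (.node (.node (.node (.node (.node .nil 151107 .nil) 151117 .nil)
    151119 (.node .nil 151572 .nil)) 151584 (.node (.node (.node .nil 151602 .nil) 151614 .nil)
    151788 (.node .nil 151800 .nil))) 151818 (.node (.node (.node (.node .nil 151830 .nil) 151932
    .nil) 151944 (.node .nil 151962 .nil)) 151974 (.node (.node (.node .nil 158484 .nil) 158496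
    .nil) 158514 (.node .nil 158526 .nil)))) 158700 (.node (.node (.node (.node (.node .nil 158712
    .nil) 158730 .nil) 158742 (.node .nil 158844 .nil)) 158856 (.node (.node (.node .nil 158874
    .nil) 158886 .nil) 163668 (.node .nil 163680 .nil))) 163698 (.node (.node (.node (.node .nil
    163710 .nil) 163884 .nil) 163896 (.node .nil 163914 .nil)) 163926 (.node (.node (.node .nil
    164028 .nil) 164040 .nil) 164058 (.node .nil 164070 .nil))))))))

/-- not fitting into 3 bins -/
def tab1_3 : Tr :=
  (.node (.node (.node (.node (.node (.node (.node (.node (.node .nil 6043 .nil) 6045 (.node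
    .nil 6475 .nil)) 6477 (.node (.node .nil 6691 .nil) 6693 .nil)) 6835 (.node (.node (.node .nil
    6837 .nil) 11227 (.node .nil 11229 .nil)) 11659 (.node (.node .nil 11661 .nil) 11875 .nil)))
    11877 (.node (.node (.node (.node .nil 12019 .nil) 12021 (.node .nil 12522 .nil)) 12738 (.node
    (.node .nil 12882 .nil) 13136 .nil)) 13138 (.node (.node (.node .nil 13154 .nil) 13156 .nil)
    13166 (.node (.node .nil 13168 .nil) 13280 .nil)))) 13282 (.node (.node (.node (.node (.node
    .nil 13298 .nil) 13300 (.node .nil 13310 .nil)) 13312 (.node (.node .nil 13496 .nil) 13498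
    .nil)) 13514 (.node (.node (.node .nil 13516 .nil) 13526 (.node .nil 13528 .nil)) 13640 (.node
    (.node .nil 13642 .nil) 13658 .nil))) 13660 (.node (.node (.node (.node .nil 13670 .nil) 13672
    (.node .nil 13759 .nil)) 13761 (.node (.node .nil 13771 .nil) 13773 .nil)) 13789 (.node (.node
    (.node .nil 13791 .nil) 18139 .nil) 18141 (.node (.node .nil 19400 .nil) 19402 .nil))))) 19418
    (.node (.node (.node (.node (.node (.node .nil 19420 .nil) 19430 (.node .nil 19432 .nil))
    19616 (.node (.node .nil 19618 .nil) 19634 .nil)) 19636 (.node (.node (.node .nil 19646 .nil)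
    19648 (.node .nil 19760 .nil)) 19762 (.node (.node .nil 19778 .nil) 19780 .nil))) 19790 (.node
    (.node (.node (.node .nil 19792 .nil) 20048 (.node .nil 20050 .nil)) 20066 (.node (.node .nil
    20068 .nil) 20078 .nil)) 20080 (.node (.node (.node .nil 20192 .nil) 20194 .nil) 20210 (.node
    (.node .nil 20212 .nil) 20222 .nil)))) 20224 (.node (.node (.node (.node (.node .nil 20408
    .nil) 20410 (.node .nil 20426 .nil)) 20428 (.node (.node .nil 20438 .nil) 20440 .nil)) 20552
    (.node (.node (.node .nil 20554 .nil) 20570 (.node .nil 20572 .nil)) 20582 (.node (.node .nil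
    20584 .nil) 20671 .nil))) 20673 (.node (.node (.node (.node .nil 20683 .nil) 20685 (.node .nil
    20701 .nil)) 20703 (.node (.node .nil 23323 .nil) 23325 .nil)) 24584 (.node (.node (.node .nil
    24586 .nil) 24602 .nil) 24604 (.node (.node .nil 24614 .nil) 24616 .nil)))))) 24800 (.node
    (.node (.node (.node (.node (.node (.node .nil 24802 .nil) 24818 (.node .nil 24820 .nil))
    24830 (.node (.node .nil 24832 .nil) 24944 .nil)) 24946 (.node (.node (.node .nil 24962 .nil)
    24964 (.node .nil 24974 .nil)) 24976 (.node (.node .nil 25232 .nil) 25234 .nil))) 25250 (.node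
    (.node (.node (.node .nil 25252 .nil) 25262 (.node .nil 25264 .nil)) 25376 (.node (.node .nil
    25378 .nil) 25394 .nil)) 25396 (.node (.node (.node .nil 25406 .nil) 25408 .nil) 25592 (.node
    (.node .nil 25594 .nil) 25610 .nil)))) 25612 (.node (.node (.node (.node (.node .nil 25622
    .nil) 25624 (.node .nil 25736 .nil)) 25738 (.node (.node .nil 25754 .nil) 25756 .nil)) 25766
    (.node (.node (.node .nil 25768 .nil) 25855 (.node .nil 25857 .nil)) 25867 (.node (.node .nil
    25869 .nil) 25885 .nil))) 25887 (.node (.node (.node (.node .nil 26095 .nil) 26097 (.node .nil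
    26113 .nil)) 26115 (.node (.node .nil 26125 .nil) 26127 .nil)) 26239 (.node (.node (.node .nil
    26241 .nil) 26257 .nil) 26259 (.node (.node .nil 26269 .nil) 26271 .nil))))) 26455 (.node
    (.node (.node (.node (.node (.node .nil 26457 .nil) 26473 (.node .nil 26475 .nil)) 26485
    (.node (.node .nil 26487 .nil) 26599 .nil)) 26601 (.node (.node (.node .nil 26617 .nil) 26619
    (.node .nil 26629 .nil)) 26631 (.node (.node .nil 26718 .nil) 26730 .nil))) 26748 (.node
    (.node (.node (.node .nil 26940 .nil) 26952 (.node .nil 26970 .nil)) 26982 (.node (.node .nil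
    27084 .nil) 27096 .nil)) 27114 (.node (.node (.node .nil 27126 .nil) 27146 .nil) 27148 (.node
    (.node .nil 27300 .nil) 27312 .nil)))) 27330 (.node (.node (.node (.node (.node .nil 27342
    .nil) 27362 (.node .nil 27364 .nil)) 27444 (.node (.node .nil 27456 .nil) 27474 .nil)) 27486
    (.node (.node (.node .nil 27506 .nil) 27508 .nil) 31496 (.node (.node .nil 31498 .nil) 31514
    .nil))) 31516 (.node (.node (.node (.node .nil 31526 .nil) 31528 (.node .nil 31712 .nil))
    31714 (.node (.node .nil 31730 .nil) 31732 .nil)) 31742 (.node (.node (.node .nil 31744 .nil)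
    31856 .nil) 31858 (.node (.node .nil 31874 .nil) 31876 .nil))))))) 31886 (.node (.node (.node
    (.node (.node (.node (.node (.node .nil 31888 .nil) 33204 (.node .nil 33216 .nil)) 33234
    (.node (.node .nil 33246 .nil) 33420 .nil)) 33432 (.node (.node (.node .nil 33450 .nil) 33462
    (.node .nil 33564 .nil)) 33576 (.node (.node .nil 33594 .nil) 33606 .nil))) 33852 (.node
    (.node (.node (.node .nil 33864 .nil) 33882 (.node .nil 33894 .nil)) 33996 (.node (.node .nil
    34008 .nil) 34026 .nil)) 34038 (.node (.node (.node .nil 34058 .nil) 34060 .nil) 34212 (.node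
    (.node .nil 34224 .nil) 34242 .nil)))) 34254 (.node (.node (.node (.node (.node .nil 34274
    .nil) 34276 (.node .nil 34356 .nil)) 34368 (.node (.node .nil 34386 .nil) 34398 .nil)) 34418
    (.node (.node (.node .nil 34420 .nil) 36680 (.node .nil 36682 .nil)) 36698 (.node (.node .nil
    36700 .nil) 36710 .nil))) 36712 (.node (.node (.node (.node .nil 36896 .nil) 36898 (.node .nil
    36914 .nil)) 36916 (.node (.node .nil 36926 .nil) 36928 .nil)) 37040 (.node (.node (.node .nil
    37042 .nil) 37058 .nil) 37060 (.node (.node .nil 37070 .nil) 37072 .nil))))) 38388 (.node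
    (.node (.node (.node (.node (.node .nil 38400 .nil) 38418 (.node .nil 38430 .nil)) 38604
    (.node (.node .nil 38616 .nil) 38634 .nil)) 38646 (.node (.node (.node .nil 38748 .nil) 38760
    (.node .nil 38778 .nil)) 38790 (.node (.node .nil 39036 .nil) 39048 .nil))) 39066 (.node
    (.node (.node (.node .nil 39078 .nil) 39180 (.node .nil 39192 .nil)) 39210 (.node (.node .nil
    39222 .nil) 39242 .nil)) 39244 (.node (.node (.node .nil 39396 .nil) 39408 .nil) 39426 (.node
    (.node .nil 39438 .nil) 39458 .nil)))) 39460 (.node (.node (.node (.node (.node .nil 39540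
    .nil) 39552 (.node .nil 39570 .nil)) 39582 (.node (.node .nil 39602 .nil) 39604 .nil)) 40105
    (.node (.node (.node .nil 40107 .nil) 40321 .nil) 40323 (.node (.node .nil 40465 .nil) 40467
    .nil))) 47696 (.node (.node (.node (.node .nil 47698 .nil) 47714 (.node .nil 47716 .nil))
    47726 (.node (.node .nil 47728 .nil) 47840 .nil)) 47842 (.node (.node (.node .nil 47858 .nil)
    47860 .nil) 47870 (.node (.node .nil 47872 .nil) 48056 .nil)))))) 48058 (.node (.node (.node
    (.node (.node (.node (.node .nil 48074 .nil) 48076 (.node .nil 48086 .nil)) 48088 (.node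
    (.node .nil 48200 .nil) 48202 .nil)) 48218 (.node (.node (.node .nil 48220 .nil) 48230 (.node
    .nil 48232 .nil)) 52880 (.node (.node .nil 52882 .nil) 52898 .nil))) 52900 (.node (.node
    (.node (.node .nil 52910 .nil) 52912 (.node .nil 53024 .nil)) 53026 (.node (.node .nil 53042
    .nil) 53044 .nil)) 53054 (.node (.node (.node .nil 53056 .nil) 53240 .nil) 53242 (.node (.node
    .nil 53258 .nil) 53260 .nil)))) 53270 (.node (.node (.node (.node (.node .nil 53272 .nil)
    53384 (.node .nil 53386 .nil)) 53402 (.node (.node .nil 53404 .nil) 53414 .nil)) 53416 (.node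
    (.node (.node .nil 53743 .nil) 53745 (.node .nil 53761 .nil)) 53763 (.node (.node .nil 53773
    .nil) 53775 .nil))) 53887 (.node (.node (.node (.node .nil 53889 .nil) 53905 (.node .nil 53907
    .nil)) 53917 (.node (.node .nil 53919 .nil) 54103 .nil)) 54105 (.node (.node (.node .nil 54121
    .nil) 54123 .nil) 54133 (.node (.node .nil 54135 .nil) 54247 .nil))))) 54249 (.node (.node
    (.node (.node (.node (.node .nil 54265 .nil) 54267 (.node .nil 54277 .nil)) 54279 (.node
    (.node .nil 54588 .nil) 54600 .nil)) 54618 (.node (.node (.node .nil 54630 .nil) 54732 (.node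
    .nil 54744 .nil)) 54762 (.node (.node .nil 54774 .nil) 54948 .nil))) 54960 (.node (.node
    (.node (.node .nil 54978 .nil) 54990 (.node .nil 55092 .nil)) 55104 (.node (.node .nil 55122
    .nil) 55134 .nil)) 61500 (.node (.node (.node .nil 61512 .nil) 61530 .nil) 61542 (.node (.node
    .nil 61644 .nil) 61656 .nil)))) 61674 (.node (.node (.node (.node (.node .nil 61686 .nil)
    61860 (.node .nil 61872 .nil)) 61890 (.node (.node .nil 61902 .nil) 62004 .nil)) 62016 (.node
    (.node (.node .nil 62034 .nil) 62046 .nil) 66684 (.node (.node .nil 66696 .nil) 66714 .nil)))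
    66726 (.node (.node (.node (.node .nil 66828 .nil) 66840 (.node .nil 66858 .nil)) 66870 (.node
    (.node .nil 67044 .nil) 67056 .nil)) 67074 (.node (.node (.node .nil 67086 .nil) 67188 .nil)
    67200 (.node (.node .nil 67218 .nil) 67230 .nil))))))))

/-- not fitting into 2 bins -/
def tab1_2 : Tr :=
  (.node (.node (.node (.node (.node (.node (.node (.node .nil 2550 .nil) 2568 (.node .nil 2580
    .nil)) 2982 (.node (.node .nil 3000 .nil) 3012 (.node .nil 3198 .nil))) 3216 (.node (.node
    (.node .nil 3228 .nil) 3342 (.node .nil 3360 .nil)) 3372 (.node (.node .nil 3632 .nil) 3634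
    (.node .nil 3650 .nil)))) 3652 (.node (.node (.node (.node .nil 3662 .nil) 3664 (.node .nil
    3776 .nil)) 3778 (.node (.node .nil 3794 .nil) 3796 (.node .nil 3806 .nil))) 3808 (.node
    (.node (.node .nil 3992 .nil) 3994 (.node .nil 4010 .nil)) 4012 (.node (.node .nil 4022 .nil)
    4024 .nil)))) 4136 (.node (.node (.node (.node (.node .nil 4138 .nil) 4154 (.node .nil 4156
    .nil)) 4166 (.node (.node .nil 4168 .nil) 4255 (.node .nil 4257 .nil))) 4267 (.node (.node
    (.node .nil 4269 .nil) 4285 (.node .nil 4287 .nil)) 4477 (.node (.node .nil 4479 .nil) 4489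
    .nil))) 4491 (.node (.node (.node (.node .nil 4507 .nil) 4509 (.node .nil 4519 .nil)) 4521
    (.node (.node .nil 4621 .nil) 4623 (.node .nil 4633 .nil))) 4635 (.node (.node (.node .nil
    4651 .nil) 4653 (.node .nil 4663 .nil)) 4665 (.node (.node .nil 4837 .nil) 4839 .nil))))) 4849
    (.node (.node (.node (.node (.node (.node .nil 4851 .nil) 4867 (.node .nil 4869 .nil)) 4879
    (.node (.node .nil 4881 .nil) 4981 (.node .nil 4983 .nil))) 4993 (.node (.node (.node .nil
    4995 .nil) 5011 (.node .nil 5013 .nil)) 5023 (.node (.node .nil 5025 .nil) 5112 .nil))) 5340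
    (.node (.node (.node (.node .nil 5352 .nil) 5370 (.node .nil 5382 .nil)) 5484 (.node (.node
    .nil 5496 .nil) 5514 (.node .nil 5526 .nil))) 5546 (.node (.node (.node .nil 5548 .nil) 5700
    (.node .nil 5712 .nil)) 5730 (.node (.node .nil 5742 .nil) 5762 .nil)))) 5764 (.node (.node
    (.node (.node (.node .nil 5844 .nil) 5856 (.node .nil 5874 .nil)) 5886 (.node (.node .nil 5906
    .nil) 5908 (.node .nil 6132 .nil))) 6144 (.node (.node (.node .nil 6162 .nil) 6174 (.node .nil
    6194 .nil)) 6196 (.node (.node .nil 6276 .nil) 6288 .nil))) 6306 (.node (.node (.node (.node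
    .nil 6318 .nil) 6338 (.node .nil 6340 .nil)) 6492 (.node (.node .nil 6504 .nil) 6522 (.node
    .nil 6534 .nil))) 6554 (.node (.node (.node .nil 6556 .nil) 6698 (.node .nil 6700 .nil)) 8816
    (.node (.node .nil 8818 .nil) 8834 .nil)))))) 8836 (.node (.node (.node (.node (.node (.node
    (.node .nil 8846 .nil) 8848 (.node .nil 8960 .nil)) 8962 (.node (.node .nil 8978 .nil) 8980
    (.node .nil 8990 .nil))) 8992 (.node (.node (.node .nil 9176 .nil) 9178 (.node .nil 9194
    .nil)) 9196 (.node (.node .nil 9206 .nil) 9208 (.node .nil 9320 .nil)))) 9322 (.node (.node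
    (.node (.node .nil 9338 .nil) 9340 (.node .nil 9350 .nil)) 9352 (.node (.node .nil 9439 .nil)
    9441 (.node .nil 9451 .nil))) 9453 (.node (.node (.node .nil 9469 .nil) 9471 (.node .nil 10524
    .nil)) 10536 (.node (.node .nil 10554 .nil) 10566 .nil)))) 10668 (.node (.node (.node (.node
    (.node .nil 10680 .nil) 10698 (.node .nil 10710 .nil)) 10730 (.node (.node .nil 10732 .nil)
    10884 (.node .nil 10896 .nil))) 10914 (.node (.node (.node .nil 10926 .nil) 10946 (.node .nil
    10948 .nil)) 11028 (.node (.node .nil 11040 .nil) 11058 .nil))) 11070 (.node (.node (.node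
    (.node .nil 11090 .nil) 11092 (.node .nil 11316 .nil)) 11328 (.node (.node .nil 11346 .nil)
    11358 (.node .nil 11378 .nil))) 11380 (.node (.node (.node .nil 11460 .nil) 11472 (.node .nil
    11490 .nil)) 11502 (.node (.node .nil 11522 .nil) 11524 .nil))))) 11676 (.node (.node (.node
    (.node (.node (.node .nil 11688 .nil) 11706 (.node .nil 11718 .nil)) 11738 (.node (.node .nil
    11740 .nil) 11882 (.node .nil 11884 .nil))) 12241 (.node (.node (.node .nil 12243 .nil) 12385
    (.node .nil 12387 .nil)) 12601 (.node (.node .nil 12603 .nil) 12745 .nil))) 12747 (.node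
    (.node (.node (.node .nil 17436 .nil) 17448 (.node .nil 17466 .nil)) 17478 (.node (.node .nil
    17580 .nil) 17592 (.node .nil 17610 .nil))) 17622 (.node (.node (.node .nil 17642 .nil) 17644
    (.node .nil 17796 .nil)) 17808 (.node (.node .nil 17826 .nil) 17838 .nil)))) 17858 (.node
    (.node (.node (.node (.node .nil 17860 .nil) 17940 (.node .nil 17952 .nil)) 17970 (.node
    (.node .nil 17982 .nil) 18002 (.node .nil 18004 .nil))) 22620 (.node (.node (.node .nil 22632
    .nil) 22650 (.node .nil 22662 .nil)) 22764 (.node (.node .nil 22776 .nil) 22794 .nil))) 22806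
    (.node (.node (.node (.node .nil 22826 .nil) 22828 (.node .nil 22980 .nil)) 22992 (.node
    (.node .nil 23010 .nil) 23022 (.node .nil 23042 .nil))) 23044 (.node (.node (.node .nil 23124
    .nil) 23136 (.node .nil 23154 .nil)) 23166 (.node (.node .nil 23186 .nil) 23188 .nil)))))))

/-- not fitting into 1 bins -/
def tab1_1 : Tr :=
  (.node (.node (.node (.node (.node (.node .nil 157 .nil) 159 .nil) 169 (.node (.node .nil 171
    .nil) 187 .nil)) 189 (.node (.node (.node .nil 199 .nil) 201 .nil) 301 (.node (.node .nil 303
    .nil) 313 .nil))) 315 (.node (.node (.node (.node .nil 331 .nil) 333 .nil) 343 (.node (.node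
    .nil 345 .nil) 517 .nil)) 519 (.node (.node (.node .nil 529 .nil) 531 .nil) 547 (.node .nil
    549 .nil)))) 559 (.node (.node (.node (.node (.node .nil 561 .nil) 661 .nil) 663 (.node (.node
    .nil 673 .nil) 675 .nil)) 691 (.node (.node (.node .nil 693 .nil) 703 .nil) 705 (.node (.node
    .nil 792 .nil) 1014 .nil))) 1026 (.node (.node (.node (.node .nil 1044 .nil) 1158 .nil) 1170
    (.node (.node .nil 1188 .nil) 1374 .nil)) 1386 (.node (.node (.node .nil 1404 .nil) 1518 .nil)
    1530 (.node .nil 1548 .nil)))))

set_option maxRecDepth 100000 in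
theorem case1 : Settled 360300 17 48 sizes (rnd ths) (look cls) gads [1, 2, 2, 2, 2] :=
  settled_of_check (items := blk1) (T := tab1_7)
    (Ts := [tab1_6, tab1_5, tab1_4, tab1_3, tab1_2, tab1_1])
    (by decide +kernel) (by decide +kernel) (by decide +kernel)

end Vale.Agent.P302.DataC
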