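import Vale.Agent.P302.DataCCase0
import Vale.Agent.P302.DataCCase1

/-! Assembly. Generated. -/

namespace Vale.Agent.P302.DataC

set_option maxRecDepth 100000 in
theorem not_packable : ¬ Packable (inst 360300 sizes) 17 :=
  master_check2 (D := 48) (fuel := 10) (ts := ths) (cs := cls) (P := pats) (G := gads)
    (cases := cases) (by norm_num) (by decide +kernel) (by decide +kernel)
    (by decide +kernel) (by decide +kernel) (by decide +kernel) (by decide +kernel)
    (by decide +kernel) gads_ok (by decide +kernel) (by
      intro us hus
      simp only [cases, List.mem_cons, List.not_mem_nil, or_false] at hus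
      rcases hus with rfl | rfl
      · exact case0
      · exact case1)

/-- instances with every number of bins from 18 on -/
theorem main (m : ℕ) : ∃ I : List ℚ, (∀ a ∈ I, 0 < a ∧ a ≤ 1) ∧ OPT I = 18 + m ∧
    LP I ≤ (18 : ℝ) + m - 24 / 19 := by
  obtain ⟨I, h1, h2, h3⟩ := ext_main (N := 17) (D := 76) (V := 1272) (by norm_num) (by norm_num)
    sizes frac bins sizes_pos frac_fits frac_covers frac_value not_packable bins_fit bins_perm
    bins_length m
  refine ⟨I, h1, h2, h3.trans (le_of_eq ?_)⟩
  push_cast
  ring

end Vale.Agent.P302.DataC
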