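import Mathlib

/-!
P302: bin packing and its Gilmore-Gomory configuration linear program.
-/

namespace Vale.Agent.P302

/-- the items of `I` can be packed into `k` bins of capacity one -/
def Packable (I : List ℚ) (k : ℕ) : Prop :=
  ∃ f : Fin I.length → Fin k, ∀ j : Fin k, ∑ i with f i = j, I.get i ≤ 1

/-- least number of bins -/
noncomputable def OPT (I : List ℚ) : ℕ := sInf {k | Packable I k}

/-- a configuration: a multiplicity for each distinct size, total size at most one -/
def IsConfig (I : List ℚ) (c : I.toFinset → ℕ) : Prop :=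
  ∑ σ : I.toFinset, (σ : ℚ) * c σ ≤ 1

/-- feasible solutions of the configuration LP: nonnegative weights on configurations covering
every size as often as it occurs in `I` -/
def LPFeasible (I : List ℚ) (z : (I.toFinset → ℕ) →₀ ℝ) : Prop :=
  (∀ c, 0 ≤ z c) ∧ (∀ c ∈ z.support, IsConfig I c) ∧
    ∀ σ : I.toFinset, (I.count (σ : ℚ) : ℝ) ≤ z.sum (fun c w => (c σ : ℝ) * w)

/-- value of the configuration LP -/
noncomputable def LP (I : List ℚ) : ℝ :=
  sInf {v | ∃ z : (I.toFinset → ℕ) →₀ ℝ, LPFeasible I z ∧ v = z.sum (fun _ w => w)}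

end Vale.Agent.P302
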