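import Vale.Agent.P302.Check

/-!
Structured proof of non-packability: rounding down, gadgets and weights.
-/

namespace Vale.Agent.P302

open Finset

/-- the multiset `s` can be split into `n` bins of total at most `L`, none of which is a pattern
of the list `F` -/
def Pk (L : ℕ) (F : List (List ℕ)) (n : ℕ) (s : Multiset ℕ) : Prop :=
  ∃ B : Multiset (Multiset ℕ), B.card = n ∧ B.sum = s ∧
    ∀ b ∈ B, b.sum ≤ L ∧ ∀ p ∈ F, b ≠ (p : Multiset ℕ)

theorem Pk.step {L n : ℕ} {F : List (List ℕ)} {x : ℕ} {s : Multiset ℕ} (h : Pk L F n (x ::ₘ s)) :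
    ∃ m b, n = m + 1 ∧ b ≤ s ∧ x + b.sum ≤ L ∧ (∀ p ∈ F, x ::ₘ b ≠ (p : Multiset ℕ)) ∧
      Pk L F m (s - b) := by
  obtain ⟨B, hB, hs, hb⟩ := h
  have hx : x ∈ B.sum := by rw [hs]; exact Multiset.mem_cons_self _ _
  have hx' : x ∈ B.join := hx
  rw [Multiset.mem_join] at hx'
  obtain ⟨c, hc, hxc⟩ := hx'
  obtain ⟨B', rfl⟩ := Multiset.exists_cons_of_mem hc
  obtain ⟨b, rfl⟩ := Multiset.exists_cons_of_mem hxc
  rw [Multiset.sum_cons, Multiset.cons_add, Multiset.cons_inj_right] at hs
  rw [Multiset.card_cons] at hB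
  have h1 := hb _ (Multiset.mem_cons_self _ _)
  rw [Multiset.sum_cons] at h1
  refine ⟨B'.card, b, hB.symm, ?_, h1.1, h1.2, B', rfl, ?_, ?_⟩
  · rw [← hs]; exact Multiset.le_add_right _ _
  · rw [← hs]; exact (add_tsub_cancel_left _ _).symm
  · intro b' hb'
    exact hb b' (Multiset.mem_cons_of_mem hb')

theorem Pk.vol {L n : ℕ} {F : List (List ℕ)} {s : Multiset ℕ} (h : Pk L F n s) :
    s.sum ≤ n * L := by
  obtain ⟨B, hB, hs, hb⟩ := h
  rw [← hs, ← hB]
  clear hs hB
  induction B using Multiset.induction with
  | empty => simp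
  | cons b B ih =>
    rw [Multiset.sum_cons, Multiset.sum_add, Multiset.card_cons, Nat.succ_mul]
    have h1 := ih (fun c hc => hb c (Multiset.mem_cons_of_mem hc))
    have h2 := (hb b (Multiset.mem_cons_self _ _)).1
    omega

theorem split_of_le : ∀ (l : List (ℕ × ℕ)) (b : Multiset ℕ), b ≤ (l.map Prod.fst : List ℕ) →
    ∃ c r, Split l c r ∧ ((c.map Prod.fst : List ℕ) : Multiset ℕ) = b ∧
      ((r.map Prod.fst : List ℕ) : Multiset ℕ) = ((l.map Prod.fst : List ℕ) : Multiset ℕ) - b
  | [], b, h => by
    have hb : b = 0 := by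
      rw [← Multiset.le_zero]; simpa using h
    refine ⟨[], [], Split.nil, ?_, ?_⟩
    · rw [hb]; rfl
    · rw [hb]; rfl
  | x :: l, b, h => by
    rw [List.map_cons, ← Multiset.cons_coe] at h
    by_cases hx : x.1 ∈ b
    · obtain ⟨b', rfl⟩ := Multiset.exists_cons_of_mem hx
      rw [Multiset.cons_le_cons_iff] at h
      obtain ⟨c, r, h1, h2, h3⟩ := split_of_le l b' h
      refine ⟨x :: c, r, Split.take h1, ?_, ?_⟩
      · rw [List.map_cons, ← Multiset.cons_coe, h2]
      · rw [List.map_cons, ← Multiset.cons_coe, Multiset.sub_cons, Multiset.erase_cons_head, h3]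
    · rw [Multiset.le_cons_of_notMem hx] at h
      obtain ⟨c, r, h1, h2, h3⟩ := split_of_le l b h
      refine ⟨c, x :: r, Split.skip h1, h2, ?_⟩
      rw [List.map_cons, List.map_cons, ← Multiset.cons_coe, ← Multiset.cons_coe, h3,
        Multiset.cons_sub_of_le _ h]

/-- equality of lists of numbers -/
def eqL : List ℕ → List ℕ → Bool
  | [], [] => true
  | a :: as, b :: bs => Nat.beq a b && eqL as bs
  | _, _ => false

theorem eqL_eq : ∀ {a b : List ℕ}, eqL a b = true → a = b
  | [], [], _ => rfl
  | a :: as, b :: bs, h => by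
    rw [eqL, Bool.and_eq_true] at h
    rw [Nat.eq_of_beq_eq_true h.1, eqL_eq h.2]
  | [], _ :: _, h => by simp [eqL] at h
  | _ :: _, [], h => by simp [eqL] at h

/-- membership in a list of patterns -/
def memL (c : List ℕ) : List (List ℕ) → Bool
  | [] => false
  | p :: F => eqL c p || memL c F

theorem memL_mem {c : List ℕ} : ∀ {F : List (List ℕ)}, memL c F = true → c ∈ F
  | [], h => by simp [memL] at h
  | p :: F, h => by
    rw [memL, Bool.or_eq_true] at h
    rcases h with h | h
    · rw [eqL_eq h]; exact List.mem_cons_self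
    · exact List.mem_cons_of_mem _ (memL_mem h)

/-- run through all sublists of the list which fit in the room `rem`; `vol` and `key` are the
total size and the key of the items left out so far, `c` the sizes of the chosen items -/
def fillF (F : List (List ℕ)) (k : ℕ → Bool) (cap : ℕ) : List (ℕ × ℕ) → ℕ → ℕ → ℕ → List ℕ → Bool
  | [], _, _, key, c => k key && !(memL c F)
  | (a, w) :: xs, rem, vol, key, c =>
    (Nat.ble a rem && fillF F k cap xs (rem - a) vol key (a :: c)) ||
      (Nat.ble (vol + a) cap && fillF F k cap xs rem (vol + a) (key + w) c)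

theorem fillF_complete {F : List (List ℕ)} {k : ℕ → Bool} {cap : ℕ} {l b r : List (ℕ × ℕ)}
    (h : Split l b r) :
    ∀ {rem vol key : ℕ} {c : List ℕ}, (b.map Prod.fst).sum ≤ rem →
      vol + (r.map Prod.fst).sum ≤ cap →
      k (key + (r.map Prod.snd).sum) = true →
      (∀ p ∈ F, ((c : Multiset ℕ) + ((b.map Prod.fst : List ℕ) : Multiset ℕ)) ≠ (p : Multiset ℕ)) →
      fillF F k cap l rem vol key c = true := by
  induction h with
  | nil =>
    intro rem vol key c _ _ h3 h4
    rw [fillF, Bool.and_eq_true]
    refine ⟨by simpa using h3, ?_⟩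
    rw [Bool.not_eq_true', ← Bool.not_eq_true]
    intro h5
    exact h4 c (memL_mem h5) (by simp)
  | @take x l b r _ ih =>
    intro rem vol key c h1 h2 h3 h4
    obtain ⟨a, w⟩ := x
    simp only [List.map_cons, List.sum_cons] at h1
    rw [fillF, Bool.or_eq_true, Bool.and_eq_true]
    left
    refine ⟨by rw [Nat.ble_eq]; omega, ih (by omega) h2 h3 ?_⟩
    intro p hp h5
    apply h4 p hp
    rw [← h5, List.map_cons, ← Multiset.cons_coe, ← Multiset.cons_coe, Multiset.cons_add,
      Multiset.add_cons]
  | @skip x l b r _ ih =>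
    intro rem vol key c h1 h2 h3 h4
    obtain ⟨a, w⟩ := x
    simp only [List.map_cons, List.sum_cons] at h2 h3
    rw [fillF, Bool.or_eq_true, Bool.and_eq_true (Nat.ble (vol + a) cap)]
    right
    refine ⟨by rw [Nat.ble_eq]; omega, ih h1 (by omega) ?_ h4⟩
    rw [← h3]
    congr 1
    omega

/-- the sublist `l` is refuted for `n + 1` bins by the table `T` for `n` bins -/
def refuteF (F : List (List ℕ)) (L : ℕ) (T : Tr) (n : ℕ) : List (ℕ × ℕ) → Bool
  | [] => false
  | (a, _) :: xs => !(fillF F (fun k => !(T.mem k)) (n * L) xs (L - a) 0 0 [a])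

/-- check of the tables, for `Ts.length, …, 2, 1` bins -/
def checkTabsF (F : List (List ℕ)) (L : ℕ) (items : List (ℕ × ℕ)) : List Tr → Bool
  | [] => true
  | [T] => T.all (fun key => refuteF F L .nil 0 (sel items key))
  | T :: T' :: Ts => checkTabsF F L items (T' :: Ts) &&
      T.all (fun key => refuteF F L T' (T' :: Ts).length (sel items key))

/-- the complete check -/
def checkF (F : List (List ℕ)) (L : ℕ) (items : List (ℕ × ℕ)) : List Tr → Bool
  | [] => false
  | T :: Ts => super items && (checkTabsF F L items (T :: Ts) &&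
      refuteF F L T (T :: Ts).length items)

theorem refuteF_sound {F : List (List ℕ)} {L n : ℕ} {T : Tr} {items l : List (ℕ × ℕ)}
    (hT : ∀ r : List (ℕ × ℕ), r.Sublist items → T.mem (r.map Prod.snd).sum = true →
      ¬ Pk L F n (r.map Prod.fst : List ℕ))
    (hl : l.Sublist items) (h : refuteF F L T n l = true) :
    ¬ Pk L F (n + 1) (l.map Prod.fst : List ℕ) := by
  intro hA
  cases l with
  | nil => simp [refuteF] at h
  | cons x xs =>
    rw [List.map_cons, ← Multiset.cons_coe] at hA
    obtain ⟨m, b, hm, h1, h2, h3, h4⟩ := hA.step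
    have hm' : n = m := by omega
    subst hm'
    obtain ⟨c, r, h5, h6, h7⟩ := split_of_le xs b h1
    rw [← h7] at h4
    rw [refuteF] at h
    have hr : r.Sublist items := h5.sublist.trans ((List.sublist_cons_self _ _).trans hl)
    have h8 : T.mem (r.map Prod.snd).sum = false := by
      rw [← Bool.not_eq_true]
      intro h9
      exact hT r hr h9 h4
    have h10 : (c.map Prod.fst).sum = b.sum := by
      rw [← h6, Multiset.sum_coe]
    have h11 : (r.map Prod.fst).sum ≤ n * L := by
      have := h4.vol
      rwa [Multiset.sum_coe] at this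
    have h12 := fillF_complete (F := F) (k := fun k => !(T.mem k)) (cap := n * L) h5
      (rem := L - x.1) (vol := 0) (key := 0) (c := [x.1]) (by omega) (by omega)
      (by rw [zero_add, h8]; rfl) (by
        intro p hp h13
        apply h3 p hp
        rw [← h13, h6]
        rfl)
    rw [h12] at h
    exact absurd h (by simp)

theorem checkTabsF_sound {F : List (List ℕ)} {L : ℕ} {items : List (ℕ × ℕ)}
    (hs : super items = true) :
    ∀ {T : Tr} {Ts : List Tr}, checkTabsF F L items (T :: Ts) = true →
      ∀ r : List (ℕ × ℕ), r.Sublist items → T.mem (r.map Prod.snd).sum = true →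
        ¬ Pk L F (T :: Ts).length (r.map Prod.fst : List ℕ)
  | T, [], h, r, hr, hm => by
    rw [checkTabsF] at h
    have h1 := Tr.all_mem h hm
    rw [sel_eq hs hr] at h1
    exact refuteF_sound (fun r _ h2 => by simp [Tr.mem] at h2) hr h1
  | T, T' :: Ts, h, r, hr, hm => by
    rw [checkTabsF, Bool.and_eq_true] at h
    have h1 := Tr.all_mem h.2 hm
    rw [sel_eq hs hr] at h1
    exact refuteF_sound (checkTabsF_sound hs h.1) hr h1

theorem checkF_sound {F : List (List ℕ)} {L : ℕ} {items : List (ℕ × ℕ)} {T : Tr} {Ts : List Tr}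
    (h : checkF F L items (T :: Ts) = true) :
    ¬ Pk L F ((T :: Ts).length + 1) (items.map Prod.fst : List ℕ) := by
  rw [checkF, Bool.and_eq_true, Bool.and_eq_true] at h
  exact refuteF_sound (checkTabsF_sound h.1 h.2.1) (List.Sublist.refl _) h.2.2

/-! ### from packings to bins -/

theorem nat_of_packable {L N : ℕ} (hL : 0 < L) {s : List ℕ} (h : Packable (inst L s) N) :
    ∃ f : Fin s.length → Fin N, ∀ j, ∑ i with f i = j, s.get i ≤ L := by
  obtain ⟨f, hf⟩ := h
  have hlen : (inst L s).length = s.length := by simp [inst]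
  refine ⟨fun i => f (i.cast hlen.symm), fun j => ?_⟩
  have h1 := hf j
  rw [Finset.sum_filter] at h1 ⊢
  have h3 : ∑ i : Fin (inst L s).length, (if f i = j then (inst L s).get i else 0) =
      ((∑ i : Fin s.length, if f (i.cast hlen.symm) = j then s.get i else 0 : ℕ) : ℚ) / L := by
    rw [Nat.cast_sum, Finset.sum_div]
    refine (Fintype.sum_equiv (finCongr hlen.symm) _ _ ?_).symm
    intro i
    simp only [finCongr_apply]
    split_ifs
    · simp [inst]
      rfl
    · simp
  rw [h3, div_le_one (by exact_mod_cast hL)] at h1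
  exact_mod_cast h1

/-- contents of the bin `j` -/
def binM {m n : ℕ} (f : Fin m → Fin n) (g : Fin m → ℕ) (j : Fin n) : Multiset ℕ :=
  (univ.filter (fun i => f i = j)).val.map g

theorem val_map_eq_sum {m : ℕ} (s : Finset (Fin m)) (g : Fin m → ℕ) :
    s.val.map g = ∑ i ∈ s, ({g i} : Multiset ℕ) := by
  have h : (fun i => ({g i} : Multiset ℕ)) = (fun a => ({a} : Multiset ℕ)) ∘ g := rfl
  rw [Finset.sum_eq_multiset_sum, h, ← Multiset.map_map (fun a => ({a} : Multiset ℕ)) g,
    Multiset.sum_map_singleton]

theorem sum_bins {m n : ℕ} (f : Fin m → Fin n) (g : Fin m → ℕ) (J : Finset (Fin n)) :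
    ∑ j ∈ J, binM f g j = (univ.filter (fun i => f i ∈ J)).val.map g := by
  rw [val_map_eq_sum, ← Finset.sum_fiberwise_of_maps_to (s := univ.filter (fun i => f i ∈ J))
    (t := J) (g := f) (fun i hi => (Finset.mem_filter.1 hi).2)]
  refine Finset.sum_congr rfl fun j hj => ?_
  rw [binM, val_map_eq_sum]
  refine Finset.sum_congr ?_ fun _ _ => rfl
  ext i
  simp only [Finset.mem_filter, Finset.mem_univ, true_and]
  constructor
  · intro h; exact ⟨h ▸ hj, h⟩
  · intro h; exact h.2

theorem univ_map_get (s : List ℕ) (q : ℕ → Bool) :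
    (univ.filter (fun i : Fin s.length => q (s.get i) = true)).val.map s.get =
      ((s.filter q : List ℕ) : Multiset ℕ) := by
  have h1 : (univ : Finset (Fin s.length)).val = (List.finRange s.length : Multiset _) := rfl
  rw [Finset.filter_val, h1, Multiset.filter_coe, Multiset.map_coe]
  congr 1
  conv_rhs => rw [← List.map_get_finRange s]
  rw [List.filter_map]
  congr 1
  apply List.filter_congr
  intro i _
  simp

theorem binM_sum {m n : ℕ} (f : Fin m → Fin n) (g : Fin m → ℕ) (j : Fin n) :
    (binM f g j).sum = ∑ i with f i = j, g i := rfl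

/-- at most `M - 1` bins are pure -/
theorem count_le {L n : ℕ} {s : List ℕ} {f : Fin s.length → Fin n}
    (hf : ∀ j, ∑ i with f i = j, s.get i ≤ L) (ρ : ℕ → ℕ) {p : List ℕ} {M : ℕ}
    (hlen : (s.filter (fun a => decide (ρ a ∈ p))).length = M * p.length)
    (hM : ¬ Pk L [] M ((s.filter (fun a => decide (ρ a ∈ p)) : List ℕ) : Multiset ℕ)) :
    (univ.val.map (binM f (fun i => ρ (s.get i)))).count (p : Multiset ℕ) < M := by
  by_contra hlt
  rw [not_lt] at hlt
  set J0 := univ.filter (fun j => (p : Multiset ℕ) = binM f (fun i => ρ (s.get i)) j) with hJ0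
  have h0 : (univ.val.map (binM f (fun i => ρ (s.get i)))).count (p : Multiset ℕ) = J0.card := by
    rw [Multiset.count_map]; rfl
  rw [h0] at hlt
  obtain ⟨J, hJ, hJc⟩ := Finset.exists_subset_card_eq hlt
  have hJp : ∀ j ∈ J, binM f (fun i => ρ (s.get i)) j = (p : Multiset ℕ) := by
    intro j hj
    have := hJ hj
    rw [hJ0, Finset.mem_filter] at this
    exact this.2.symm
  set S1 := univ.filter (fun i : Fin s.length => f i ∈ J) with hS1
  set S2 := univ.filter (fun i : Fin s.length => decide (ρ (s.get i) ∈ p) = true) with hS2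
  have hsub : S1 ⊆ S2 := by
    intro i hi
    rw [hS1, Finset.mem_filter] at hi
    rw [hS2, Finset.mem_filter]
    refine ⟨Finset.mem_univ _, ?_⟩
    have h1 : ρ (s.get i) ∈ binM f (fun i => ρ (s.get i)) (f i) := by
      rw [binM, Multiset.mem_map]
      exact ⟨i, by simp, rfl⟩
    rw [hJp _ hi.2] at h1
    simpa using h1
  have hc1 : S1.card = M * p.length := by
    have h1 := congrArg Multiset.card (sum_bins f (fun i => ρ (s.get i)) J)
    rw [Multiset.card_map] at h1
    change _ = S1.card at h1
    rw [← h1, Finset.sum_congr rfl hJp, Finset.sum_const, hJc, Multiset.card_nsmul,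
      Multiset.coe_card]
  have hc2 : S2.card = M * p.length := by
    have h1 := congrArg Multiset.card (univ_map_get s (fun a => decide (ρ a ∈ p)))
    rw [Multiset.card_map, Multiset.coe_card, hlen] at h1
    exact h1
  have heq : S1 = S2 := Finset.eq_of_subset_of_card_le hsub (by rw [hc1, hc2])
  apply hM
  refine ⟨J.val.map (binM f s.get), ?_, ?_, ?_⟩
  · rw [Multiset.card_map]; exact hJc
  · have h1 := sum_bins f s.get J
    have h2 := univ_map_get s (fun a => decide (ρ a ∈ p))
    rw [Finset.sum_eq_multiset_sum] at h1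
    rw [h1]
    change Multiset.map s.get S1.val = _
    rw [heq]
    exact h2
  · intro b hb
    rw [Multiset.mem_map] at hb
    obtain ⟨j, _, rfl⟩ := hb
    refine ⟨?_, fun p hp => by simp at hp⟩
    rw [binM_sum]; exact hf j

theorem filter_mem_eq (B : Multiset (Multiset ℕ)) : ∀ (P : List (Multiset ℕ)), P.Nodup →
    B.filter (fun b => b ∈ P) = (P.map (fun p => Multiset.replicate (B.count p) p)).sum
  | [], _ => by simp
  | p :: P, h => by
    rw [List.nodup_cons] at h
    rw [List.map_cons, List.sum_cons, ← filter_mem_eq B P h.2, ← Multiset.filter_eq]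
    ext a
    rw [Multiset.count_add, Multiset.count_filter, Multiset.count_filter, Multiset.count_filter]
    by_cases h1 : p = a
    · subst h1
      simp [h.1]
    · have h2 : a ≠ p := fun h3 => h1 h3.symm
      simp [h1, h2]

/-- list sums: raising one entry -/
theorem sum_lt_of_ne {α : Type*} (e u v : α → ℕ) : ∀ (G : List α), (∀ g ∈ G, u g ≤ v g) →
    ∀ g ∈ G, u g < v g → (G.map (fun h => e h * u h)).sum + e g ≤ (G.map (fun h => e h * v h)).sum
  | [], _, g, hg, _ => by simp at hg
  | h :: G, hle, g, hg, hlt => by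
    rw [List.map_cons, List.map_cons, List.sum_cons, List.sum_cons]
    rw [List.mem_cons] at hg
    have hmono : (G.map (fun h => e h * u h)).sum ≤ (G.map (fun h => e h * v h)).sum :=
      List.sum_le_sum fun x hx => Nat.mul_le_mul_left _ (hle x (List.mem_cons_of_mem _ hx))
    rcases hg with rfl | hg
    · have h1 : e g * u g + e g ≤ e g * v g := by
        calc e g * u g + e g = e g * (u g + 1) := by ring
          _ ≤ e g * v g := Nat.mul_le_mul_left _ hlt
      omega
    · have h1 := sum_lt_of_ne e u v G (fun x hx => hle x (List.mem_cons_of_mem _ hx)) g hg hlt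
      have h2 : e h * u h ≤ e h * v h := Nat.mul_le_mul_left _ (hle h List.mem_cons_self)
      omega

theorem weight_sum (w : Multiset ℕ → ℕ) (D : ℕ) (G : List (List ℕ × ℕ × ℕ))
    (B : Multiset (Multiset ℕ))
    (hw : ∀ b ∈ B, w b ≤ D + (G.map (fun g => if b = (g.1 : Multiset ℕ) then g.2.2 else 0)).sum) :
    (B.map w).sum ≤ D * B.card + (G.map (fun g => g.2.2 * B.count (g.1 : Multiset ℕ))).sum := by
  induction B using Multiset.induction with
  | empty => simp
  | cons b B ih =>
    have h1 := ih (fun c hc => hw c (Multiset.mem_cons_of_mem hc))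
    have h2 := hw b (Multiset.mem_cons_self _ _)
    have h3 : (G.map (fun g => g.2.2 * (b ::ₘ B).count (g.1 : Multiset ℕ))).sum =
        (G.map (fun g => if b = (g.1 : Multiset ℕ) then g.2.2 else 0)).sum +
          (G.map (fun g => g.2.2 * B.count (g.1 : Multiset ℕ))).sum := by
      rw [← List.sum_map_add]
      congr 1
      apply List.map_congr_left
      intro g _
      rw [Multiset.count_cons]
      by_cases h : b = (g.1 : Multiset ℕ)
      · rw [if_pos h, if_pos h.symm]; ring
      · rw [if_neg h, if_neg (fun h' => h h'.symm)]; ring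
    rw [Multiset.map_cons, Multiset.sum_cons, Multiset.card_cons, h3]
    have h4 : D * (B.card + 1) = D * B.card + D := by ring
    omega

/-- the gadgets are triples (pattern, number of copies, excess weight) -/
theorem master {L n n' D : ℕ} (hL : 0 < L) {s : List ℕ} (ρ w : ℕ → ℕ)
    (G : List (List ℕ × ℕ × ℕ)) (rest : List ℕ)
    (hρ : ∀ a ∈ s, ρ a ≤ a)
    (hnd : (G.map (fun g => (g.1 : Multiset ℕ))).Nodup)
    (hw : ∀ b : Multiset ℕ, (∀ t ∈ b, ∃ a ∈ s, ρ a = t) → b.sum ≤ L →
      (b.map w).sum ≤ D + (G.map (fun g => if b = (g.1 : Multiset ℕ) then g.2.2 else 0)).sum)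
    (hlen : ∀ g ∈ G, (s.filter (fun a => decide (ρ a ∈ g.1))).length = g.2.1 * g.1.length)
    (hgad : ∀ g ∈ G, ¬ Pk L [] g.2.1
      ((s.filter (fun a => decide (ρ a ∈ g.1)) : List ℕ) : Multiset ℕ))
    (htot : ((s.map ρ : List ℕ) : Multiset ℕ) =
      (rest : Multiset ℕ) + (G.map (fun g => (g.2.1 - 1) • (g.1 : Multiset ℕ))).sum)
    (hnum : ∀ g ∈ G, D * n + (G.map (fun h => h.2.2 * (h.2.1 - 1))).sum <
      (s.map (fun a => w (ρ a))).sum + g.2.2)
    (hrest : ¬ Pk L (G.map Prod.fst) n' (rest : Multiset ℕ))
    (hn : n = n' + (G.map (fun g => g.2.1 - 1)).sum) :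
    ¬ Packable (inst L s) n := by
  intro hp
  obtain ⟨f, hf⟩ := nat_of_packable hL hp
  set B : Multiset (Multiset ℕ) := univ.val.map (binM f (fun i => ρ (s.get i))) with hB
  have hBc : B.card = n := by
    rw [hB, Multiset.card_map]; simp
  have hBs : B.sum = ((s.map ρ : List ℕ) : Multiset ℕ) := by
    have h1 := sum_bins f (fun i => ρ (s.get i)) univ
    rw [Finset.sum_eq_multiset_sum] at h1
    rw [hB, h1]
    have h2 : (univ.filter (fun i => f i ∈ (univ : Finset (Fin n)))) = univ := by simp
    rw [h2]
    have h3 : (univ : Finset (Fin s.length)).val = (List.finRange s.length : Multiset _) := rfl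
    rw [h3, Multiset.map_coe]
    congr 1
    conv_rhs => rw [← List.map_get_finRange s]
    rw [List.map_map]
    rfl
  have hBL : ∀ b ∈ B, b.sum ≤ L := by
    intro b hb
    rw [hB, Multiset.mem_map] at hb
    obtain ⟨j, _, rfl⟩ := hb
    rw [binM_sum]
    refine le_trans (Finset.sum_le_sum fun i _ => hρ _ (List.get_mem _ _)) (hf j)
  have hBm : ∀ b ∈ B, ∀ t ∈ b, ∃ a ∈ s, ρ a = t := by
    intro b hb t ht
    rw [hB, Multiset.mem_map] at hb
    obtain ⟨j, _, rfl⟩ := hb
    rw [binM, Multiset.mem_map] at ht
    obtain ⟨i, _, rfl⟩ := ht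
    exact ⟨_, List.get_mem _ _, rfl⟩
  have hcount : ∀ g ∈ G, B.count (g.1 : Multiset ℕ) < g.2.1 := fun g hg =>
    count_le hf ρ (hlen g hg) (hgad g hg)
  have hws := weight_sum (fun b => (b.map w).sum) D G B
    (fun b hb => hw b (hBm b hb) (hBL b hb))
  have hwt : (B.map (fun b => (b.map w).sum)).sum = (s.map (fun a => w (ρ a))).sum := by
    have h1 : ∀ B : Multiset (Multiset ℕ), (B.map (fun b => (b.map w).sum)).sum =
        (B.sum.map w).sum := by
      intro B
      induction B using Multiset.induction with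
      | empty => simp
      | cons b B ih => simp [ih]
    rw [h1, hBs, Multiset.map_coe, Multiset.sum_coe, List.map_map]
    rfl
  rw [hwt, hBc] at hws
  by_cases hall : ∀ g ∈ G, B.count (g.1 : Multiset ℕ) = g.2.1 - 1
  · apply hrest
    set P := G.map (fun g => (g.1 : Multiset ℕ)) with hP
    have h1 := filter_mem_eq B P hnd
    have h2 : (P.map (fun p => Multiset.replicate (B.count p) p)) =
        G.map (fun g => Multiset.replicate (g.2.1 - 1) (g.1 : Multiset ℕ)) := by
      rw [hP, List.map_map]
      apply List.map_congr_left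
      intro g hg
      simp only [Function.comp]
      rw [hall g hg]
    rw [h2] at h1
    have h3 : B.filter (fun b => b ∈ P) + B.filter (fun b => b ∉ P) = B :=
      Multiset.filter_add_not _ _
    have h4 : ∀ G' : List (List ℕ × ℕ × ℕ),
        (G'.map (fun g => Multiset.replicate (g.2.1 - 1) (g.1 : Multiset ℕ))).sum.card =
          (G'.map (fun g => g.2.1 - 1)).sum := by
      intro G'
      induction G' with
      | nil => simp
      | cons g G' ih => simp [ih]
    have h5 : ∀ G' : List (List ℕ × ℕ × ℕ),
        (G'.map (fun g => Multiset.replicate (g.2.1 - 1) (g.1 : Multiset ℕ))).sum.sum =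
          (G'.map (fun g => (g.2.1 - 1) • (g.1 : Multiset ℕ))).sum := by
      intro G'
      induction G' with
      | nil => simp
      | cons g G' ih => simp [ih]
    refine ⟨B.filter (fun b => b ∉ P), ?_, ?_, ?_⟩
    · have h6 := congrArg Multiset.card h3
      rw [Multiset.card_add, h1, h4, hBc, hn] at h6
      omega
    · have h6 := congrArg Multiset.sum h3
      rw [Multiset.sum_add, h1, h5, hBs, htot, add_comm] at h6
      exact add_right_cancel h6
    · intro b hb
      rw [Multiset.mem_filter] at hb
      refine ⟨hBL b hb.1, ?_⟩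
      intro p hp h7
      apply hb.2
      rw [List.mem_map] at hp
      obtain ⟨g, hg, rfl⟩ := hp
      rw [hP, List.mem_map]
      exact ⟨g, hg, h7.symm⟩
  · push Not at hall
    obtain ⟨g, hg, hne⟩ := hall
    have h1 := sum_lt_of_ne (fun h : List ℕ × ℕ × ℕ => h.2.2)
      (fun h => B.count (h.1 : Multiset ℕ)) (fun h => h.2.1 - 1) G
      (fun h hh => by have := hcount h hh; show Multiset.count _ _ ≤ _; omega) g hg
      (by have := hcount g hg; show Multiset.count _ _ < _; omega)
    have h2 := hnum g hg
    omega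

/-! ### weights -/

/-- all ways to take copies of the size `t`, then `next` -/
def goW (next : ℕ → ℕ → List ℕ → Bool) (t w : ℕ) : ℕ → ℕ → ℕ → List ℕ → Bool
  | 0, rem, val, c => next rem val c && !(Nat.ble t rem)
  | f + 1, rem, val, c => next rem val c &&
      (!(Nat.ble t rem) || goW next t w f (rem - t) (val + w) (t :: c))

/-- the multiset `c` is a pattern whose weight is allowed to be `val` -/
def pureW (D val : ℕ) (c : List ℕ) : List (List ℕ × ℕ) → Bool
  | [] => false
  | p :: P => (eqL c p.1 && Nat.ble val (D + p.2)) || pureW D val c P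

/-- all sublists of total at most `rem` of the classes have weight at most `D - val`, except the
patterns in `P`; the classes are (size, weight), by decreasing density -/
def enumW (D : ℕ) (P : List (List ℕ × ℕ)) (fuel : ℕ) : List (ℕ × ℕ) → ℕ → ℕ → List ℕ → Bool
  | [], _, val, c => Nat.ble val D || pureW D val c P
  | (t, w) :: cs, rem, val, c => Nat.ble (val * t + rem * w) (D * t) ||
      goW (enumW D P fuel cs) t w fuel rem val c

/-- the classes have positive sizes and decreasing densities -/
def densW : List (ℕ × ℕ) → Bool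
  | [] => true
  | (t, w) :: cs => Nat.blt 0 t && (cs.all (fun p => Nat.ble (p.2 * t) (w * p.1)) && densW cs)

theorem pureW_sound {D val : ℕ} {c : List ℕ} : ∀ {P : List (List ℕ × ℕ)}, pureW D val c P = true →
    ∃ q ∈ P, c = q.1 ∧ val ≤ D + q.2
  | [], h => by simp [pureW] at h
  | p :: P, h => by
    rw [pureW, Bool.or_eq_true, Bool.and_eq_true] at h
    rcases h with h | h
    · exact ⟨p, List.mem_cons_self, eqL_eq h.1, by
        have := h.2; rwa [Nat.ble_eq] at this⟩
    · obtain ⟨q, h1, h2⟩ := pureW_sound h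
      exact ⟨q, List.mem_cons_of_mem _ h1, h2⟩

theorem goW_sound {next : ℕ → ℕ → List ℕ → Bool} {t w : ℕ} : ∀ {f rem val : ℕ} {c : List ℕ},
    goW next t w f rem val c = true → 0 < t → ∀ k, k * t ≤ rem →
      next (rem - k * t) (val + k * w) (List.replicate k t ++ c) = true
  | 0, rem, val, c, h, ht, k, hk => by
    rw [goW, Bool.and_eq_true] at h
    have h2 : ¬ t ≤ rem := by
      have h4 := h.2
      intro h3
      have h5 : Nat.ble t rem = true := by rw [Nat.ble_eq]; exact h3
      rw [h5] at h4
      simp at h4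
    have hk0 : k = 0 := by
      by_contra hk0
      apply h2
      calc t = 1 * t := (one_mul t).symm
        _ ≤ k * t := Nat.mul_le_mul_right _ (by omega)
        _ ≤ rem := hk
    subst hk0
    simpa using h.1
  | f + 1, rem, val, c, h, ht, k, hk => by
    rw [goW, Bool.and_eq_true] at h
    cases k with
    | zero => simpa using h.1
    | succ k =>
      have h1 : t + k * t ≤ rem := by
        have : (k + 1) * t = k * t + t := by ring
        omega
      have h2 : Nat.ble t rem = true := by rw [Nat.ble_eq]; omega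
      have h3 := h.2
      rw [h2] at h3
      simp only [Bool.not_true, Bool.false_or] at h3
      have h4 := goW_sound h3 ht k (by omega)
      have e1 : rem - (k + 1) * t = rem - t - k * t := by
        have : (k + 1) * t = k * t + t := by ring
        omega
      have e2 : val + (k + 1) * w = val + w + k * w := by ring
      have e3 : List.replicate (k + 1) t ++ c = List.replicate k t ++ t :: c := by
        rw [List.replicate_succ', List.append_assoc]; rfl
      rw [e1, e2, e3]
      exact h4

theorem dens_bound {W : ℕ → ℕ} {t w : ℕ} (b : Multiset ℕ) (h : ∀ x ∈ b, W x * t ≤ w * x) :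
    (b.map W).sum * t ≤ w * b.sum := by
  induction b using Multiset.induction with
  | empty => simp
  | cons x b ih =>
    have h1 := ih (fun y hy => h y (Multiset.mem_cons_of_mem hy))
    have h2 := h x (Multiset.mem_cons_self _ _)
    rw [Multiset.map_cons, Multiset.sum_cons, Multiset.sum_cons]
    calc (W x + (b.map W).sum) * t = W x * t + (b.map W).sum * t := by ring
      _ ≤ w * x + w * b.sum := Nat.add_le_add h2 h1
      _ = w * (x + b.sum) := by ring

theorem enumW_sound {D fuel : ℕ} {P : List (List ℕ × ℕ)} {W : ℕ → ℕ} :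
    ∀ {cs : List (ℕ × ℕ)} {rem val : ℕ} {c : List ℕ}, enumW D P fuel cs rem val c = true →
      densW cs = true → (∀ p ∈ cs, W p.1 = p.2) →
      ∀ b : Multiset ℕ, (∀ x ∈ b, ∃ p ∈ cs, p.1 = x) → b.sum ≤ rem →
        val + (b.map W).sum ≤ D ∨
          ∃ q ∈ P, (c : Multiset ℕ) + b = (q.1 : Multiset ℕ) ∧ val + (b.map W).sum ≤ D + q.2
  | [], rem, val, c, h, _, _, b, hb, _ => by
    have hb0 : b = 0 := by
      rw [Multiset.eq_zero_iff_forall_notMem]
      intro x hx
      obtain ⟨p, hp, _⟩ := hb x hx
      simp at hp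
    subst hb0
    rw [enumW, Bool.or_eq_true] at h
    rcases h with h | h
    · left
      rw [Nat.ble_eq] at h
      simpa using h
    · right
      obtain ⟨q, h1, h2, h3⟩ := pureW_sound h
      exact ⟨q, h1, by simp [h2], by simpa using h3⟩
  | (t, w) :: cs, rem, val, c, h, hd, hW, b, hb, hbs => by
    rw [densW, Bool.and_eq_true, Bool.and_eq_true] at hd
    have ht : 0 < t := by
      have := hd.1
      rw [Nat.blt, Nat.ble_eq] at this
      exact this
    rw [enumW, Bool.or_eq_true] at h
    rcases h with h | h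
    · left
      rw [Nat.ble_eq] at h
      have h1 := dens_bound (W := W) (t := t) (w := w) b (by
        intro x hx
        obtain ⟨p, hp, rfl⟩ := hb x hx
        rw [List.mem_cons] at hp
        rcases hp with rfl | hp
        · rw [hW _ List.mem_cons_self]
        · rw [hW _ (List.mem_cons_of_mem _ hp)]
          have h2 := List.all_eq_true.1 hd.2.1 p hp
          rwa [Nat.ble_eq] at h2)
      have h2 : (val + (b.map W).sum) * t ≤ D * t := by
        calc (val + (b.map W).sum) * t = val * t + (b.map W).sum * t := by ring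
          _ ≤ val * t + w * b.sum := Nat.add_le_add_left h1 _
          _ ≤ val * t + rem * w := by
            rw [Nat.mul_comm w]; exact Nat.add_le_add_left (Nat.mul_le_mul_right _ hbs) _
          _ ≤ D * t := h
      exact Nat.le_of_mul_le_mul_right h2 ht
    · set b' := b.filter (fun x => ¬ x = t) with hb'
      have hbb : b = Multiset.replicate (b.count t) t + b' := by
        rw [hb', ← Multiset.filter_eq']
        exact (Multiset.filter_add_not _ _).symm
      have hsum : b.sum = b.count t * t + b'.sum := by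
        conv_lhs => rw [hbb]
        rw [Multiset.sum_add, Multiset.sum_replicate, smul_eq_mul]
      have hWsum : (b.map W).sum = b.count t * w + (b'.map W).sum := by
        conv_lhs => rw [hbb]
        rw [Multiset.map_add, Multiset.sum_add, Multiset.map_replicate, Multiset.sum_replicate,
          smul_eq_mul, hW (t, w) List.mem_cons_self]
      have h1 := goW_sound h ht (b.count t) (by omega)
      have h2 := enumW_sound h1 hd.2.2 (fun p hp => hW p (List.mem_cons_of_mem _ hp)) b' (by
        intro x hx
        rw [hb', Multiset.mem_filter] at hx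
        obtain ⟨p, hp, hpx⟩ := hb x hx.1
        rw [List.mem_cons] at hp
        rcases hp with rfl | hp
        · exact absurd hpx.symm hx.2
        · exact ⟨p, hp, hpx⟩) (by omega)
      rcases h2 with h2 | ⟨q, h3, h4, h5⟩
      · left; omega
      · right
        refine ⟨q, h3, ?_, by omega⟩
        have e : ((List.replicate (Multiset.count t b) t ++ c : List ℕ) : Multiset ℕ) =
            Multiset.replicate (Multiset.count t b) t + (c : Multiset ℕ) := by
          rw [← Multiset.coe_add, Multiset.coe_replicate]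
        rw [← h4, e, add_comm (Multiset.replicate _ _) (c : Multiset ℕ), add_assoc, ← hbb]

/-! ### the check with data -/

/-- rounding down to the first threshold of the list which is at most `a` -/
def rnd : List ℕ → ℕ → ℕ
  | [], _ => 0
  | t :: ts, a => bif Nat.ble t a then t else rnd ts a

theorem rnd_le : ∀ (ts : List ℕ) (a : ℕ), rnd ts a ≤ a
  | [], a => Nat.zero_le a
  | t :: ts, a => by
    rw [rnd]
    cases h : Nat.ble t a
    · exact rnd_le ts a
    · rw [Nat.ble_eq] at h; exact h

/-- weight of a class -/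
def look : List (ℕ × ℕ) → ℕ → ℕ
  | [], _ => 0
  | (t, w) :: cs, a => bif Nat.beq t a then w else look cs a

/-- equality of lists up to order, by counting -/
def samePerm (a b : List ℕ) : Bool :=
  a.all (fun x => Nat.beq (a.count x) (b.count x)) && b.all (fun x => Nat.beq (a.count x) (b.count x))

theorem samePerm_eq {a b : List ℕ} (h : samePerm a b = true) :
    (a : Multiset ℕ) = (b : Multiset ℕ) := by
  rw [samePerm, Bool.and_eq_true, List.all_eq_true, List.all_eq_true] at h
  rw [Multiset.coe_eq_coe, List.perm_iff_count]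
  intro x
  by_cases h1 : x ∈ a
  · exact Nat.eq_of_beq_eq_true (h.1 x h1)
  · by_cases h2 : x ∈ b
    · exact Nat.eq_of_beq_eq_true (h.2 x h2)
    · rw [List.count_eq_zero_of_not_mem h1, List.count_eq_zero_of_not_mem h2]

/-- the items taken by the pure bins -/
def pures : List (List ℕ × ℕ × ℕ) → List ℕ
  | [] => []
  | g :: G => (List.replicate (g.2.1 - 1) g.1).flatten ++ pures G

theorem pures_eq : ∀ G : List (List ℕ × ℕ × ℕ), ((pures G : List ℕ) : Multiset ℕ) =
    (G.map (fun g => (g.2.1 - 1) • (g.1 : Multiset ℕ))).sum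
  | [] => rfl
  | g :: G => by
    rw [pures, ← Multiset.coe_add, pures_eq G, List.map_cons, List.sum_cons]
    congr 1
    generalize g.2.1 - 1 = k
    induction k with
    | zero => simp
    | succ k ih =>
      rw [List.replicate_succ, List.flatten_cons, ← Multiset.coe_add, ih, succ_nsmul, add_comm]

theorem samePerm_of_eq {a b : List ℕ} (h : (a : Multiset ℕ) = (b : Multiset ℕ)) :
    samePerm a b = true := by
  rw [Multiset.coe_eq_coe, List.perm_iff_count] at h
  rw [samePerm, Bool.and_eq_true, List.all_eq_true, List.all_eq_true]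
  exact ⟨fun x _ => by rw [h x]; exact Nat.beq_refl _, fun x _ => by rw [h x]; exact Nat.beq_refl _⟩

/-- distinct patterns -/
def distinctPats : List (List ℕ × ℕ × ℕ) → Bool
  | [] => true
  | g :: G => G.all (fun h => !(samePerm g.1 h.1)) && distinctPats G

theorem distinctPats_nodup : ∀ {G : List (List ℕ × ℕ × ℕ)}, distinctPats G = true →
    (G.map (fun g => (g.1 : Multiset ℕ))).Nodup
  | [], _ => List.nodup_nil
  | g :: G, h => by
    rw [distinctPats, Bool.and_eq_true, List.all_eq_true] at h
    rw [List.map_cons, List.nodup_cons]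
    refine ⟨?_, distinctPats_nodup h.2⟩
    intro hm
    rw [List.mem_map] at hm
    obtain ⟨g', hg', he⟩ := hm
    have h1 := h.1 g' hg'
    rw [samePerm_of_eq he.symm] at h1
    simp at h1

theorem le_ite_sum {b : Multiset ℕ} : ∀ {G : List (List ℕ × ℕ × ℕ)} {g : List ℕ × ℕ × ℕ},
    g ∈ G → b = (g.1 : Multiset ℕ) →
    g.2.2 ≤ (G.map (fun g => if b = (g.1 : Multiset ℕ) then g.2.2 else 0)).sum
  | [], g, hg, _ => by simp at hg
  | h :: G, g, hg, he => by
    rw [List.map_cons, List.sum_cons]
    rw [List.mem_cons] at hg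
    rcases hg with rfl | hg
    · rw [if_pos he]; exact Nat.le_add_right _ _
    · exact (le_ite_sum hg he).trans (Nat.le_add_left _ _)

theorem master_check {L n n' D fuel : ℕ} (hL : 0 < L) {s ts rest : List ℕ} {cs : List (ℕ × ℕ)}
    {P : List (List ℕ × ℕ)} {G : List (List ℕ × ℕ × ℕ)}
    (h1 : s.all (fun a => cs.any (fun p => Nat.beq p.1 (rnd ts a))) = true)
    (h2 : distinctPats G = true)
    (h3 : enumW D P fuel cs L 0 [] = true) (h4 : densW cs = true)
    (h5 : cs.all (fun p => Nat.beq (look cs p.1) p.2) = true)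
    (h6 : P.all (fun q => G.any (fun g => samePerm q.1 g.1 && Nat.ble q.2 g.2.2)) = true)
    (h7 : G.all (fun g => Nat.beq (s.filter (fun a => decide (rnd ts a ∈ g.1))).length
      (g.2.1 * g.1.length)) = true)
    (hgad : ∀ g ∈ G, ¬ Pk L [] g.2.1
      ((s.filter (fun a => decide (rnd ts a ∈ g.1)) : List ℕ) : Multiset ℕ))
    (h8 : samePerm (s.map (rnd ts)) (rest ++ pures G) = true)
    (h9 : G.all (fun g => Nat.blt (D * n + (G.map (fun h => h.2.2 * (h.2.1 - 1))).sum)
      ((s.map (fun a => look cs (rnd ts a))).sum + g.2.2)) = true)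
    (hrest : ¬ Pk L (G.map Prod.fst) n' (rest : Multiset ℕ))
    (hn : n = n' + (G.map (fun g => g.2.1 - 1)).sum) :
    ¬ Packable (inst L s) n := by
  rw [List.all_eq_true] at h1 h5 h6 h7 h9
  refine master hL (rnd ts) (look cs) G rest (fun a _ => rnd_le ts a) (distinctPats_nodup h2)
    ?_ ?_ hgad ?_ ?_ hrest hn (D := D)
  · intro b hb hbL
    have h10 := enumW_sound (W := look cs) h3 h4
      (fun p hp => Nat.eq_of_beq_eq_true (h5 p hp)) b (by
        intro x hx
        obtain ⟨a, ha, rfl⟩ := hb x hx
        have h11 := h1 a ha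
        rw [List.any_eq_true] at h11
        obtain ⟨p, hp, hpa⟩ := h11
        exact ⟨p, hp, Nat.eq_of_beq_eq_true hpa⟩) hbL
    rw [zero_add] at h10
    rcases h10 with h10 | ⟨q, hq, hqb, hqw⟩
    · exact h10.trans (Nat.le_add_right _ _)
    · have h12 := h6 q hq
      rw [List.any_eq_true] at h12
      obtain ⟨g, hg, h13⟩ := h12
      rw [Bool.and_eq_true, Nat.ble_eq] at h13
      have h14 : b = (g.1 : Multiset ℕ) := by
        rw [← samePerm_eq h13.1, ← hqb]
        simp
      exact hqw.trans (Nat.add_le_add_left (h13.2.trans (le_ite_sum hg h14)) _)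
  · intro g hg
    exact Nat.eq_of_beq_eq_true (h7 g hg)
  · rw [← pures_eq, Multiset.coe_add]
    exact samePerm_eq h8
  · intro g hg
    have := h9 g hg
    rw [Nat.blt, Nat.ble_eq] at this
    exact this

end Vale.Agent.P302
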