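import Vale.Agent.P302.Multi

/-!
Nominal search with blocks of equal items and weights, and several cases for the numbers of pure
bins.
-/

namespace Vale.Agent.P302

open Finset

/-- the multiset `s` can be split into `n` bins of total at most `L` and weight at most `D`, none
of which is a pattern of the list `F` -/
def PkW (L : ℕ) (F : List (List ℕ)) (W : ℕ → ℕ) (D n : ℕ) (s : Multiset ℕ) : Prop :=
  ∃ B : Multiset (Multiset ℕ), B.card = n ∧ B.sum = s ∧
    ∀ b ∈ B, b.sum ≤ L ∧ (∀ p ∈ F, b ≠ (p : Multiset ℕ)) ∧ (b.map W).sum ≤ D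

theorem PkW.step {L D n : ℕ} {F : List (List ℕ)} {W : ℕ → ℕ} {x : ℕ} {s : Multiset ℕ}
    (h : PkW L F W D n (x ::ₘ s)) :
    ∃ m b, n = m + 1 ∧ b ≤ s ∧ x + b.sum ≤ L ∧ (∀ p ∈ F, x ::ₘ b ≠ (p : Multiset ℕ)) ∧
      PkW L F W D m (s - b) := by
  obtain ⟨B, hB, hs, hb⟩ := h
  have hx : x ∈ B.sum := by rw [hs]; exact Multiset.mem_cons_self _ _
  have hx' : x ∈ B.join := hx
  rw [Multiset.mem_join] at hx'
  obtain ⟨c, hc, hxc⟩ := hx'
  obtain ⟨B', rfl⟩ := Multiset.exists_cons_of_mem hc
  obtain ⟨b, rfl⟩ := Multiset.exists_cons_of_mem hxc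
  rw [Multiset.sum_cons, Multiset.cons_add, Multiset.cons_inj_right] at hs
  rw [Multiset.card_cons] at hB
  have h1 := hb _ (Multiset.mem_cons_self _ _)
  rw [Multiset.sum_cons] at h1
  refine ⟨B'.card, b, hB.symm, ?_, h1.1, h1.2.1, B', rfl, ?_, ?_⟩
  · rw [← hs]; exact Multiset.le_add_right _ _
  · rw [← hs]; exact (add_tsub_cancel_left _ _).symm
  · intro b' hb'
    exact hb b' (Multiset.mem_cons_of_mem hb')

theorem PkW.vol {L D n : ℕ} {F : List (List ℕ)} {W : ℕ → ℕ} {s : Multiset ℕ}
    (h : PkW L F W D n s) : (s.map W).sum ≤ n * D := by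
  obtain ⟨B, hB, hs, hb⟩ := h
  rw [← hs, ← hB]
  clear hs hB
  induction B using Multiset.induction with
  | empty => simp
  | cons b B ih =>
    rw [Multiset.sum_cons, Multiset.map_add, Multiset.sum_add, Multiset.card_cons, Nat.succ_mul]
    have h1 := ih (fun c hc => hb c (Multiset.mem_cons_of_mem hc))
    have h2 := (hb b (Multiset.mem_cons_self _ _)).2.2
    omega

/-- the items of a list of blocks (size, weight, key, number) -/
def tot : List (ℕ × ℕ × ℕ × ℕ) → Multiset ℕ
  | [] => 0
  | (a, _, _, c) :: l => Multiset.replicate c a + tot l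

/-- all ways to take some of the `n` items of size `a`, then `next` -/
def goB (next : ℕ → ℕ → ℕ → List ℕ → Bool) (cap a u w : ℕ) :
    ℕ → ℕ → ℕ → ℕ → List ℕ → Bool
  | 0, rem, vol, key, c => next rem vol key c
  | n + 1, rem, vol, key, c =>
    (Nat.ble a rem && goB next cap a u w n (rem - a) vol key (a :: c)) ||
      (Nat.ble (vol + (n + 1) * u) cap &&
        next rem (vol + (n + 1) * u) (key + (n + 1) * w) c)

/-- run through all ways to fill the room `rem` with items of the blocks; `vol` and `key` are the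
total weight and the key of the items left out so far, `c` the sizes of the chosen items -/
def fillB (F : List (List ℕ)) (k : ℕ → Bool) (cap : ℕ) :
    List (ℕ × ℕ × ℕ × ℕ) → ℕ → ℕ → ℕ → List ℕ → Bool
  | [], _, _, key, c => k key && !(memL c F)
  | (a, u, w, m) :: l, rem, vol, key, c =>
    goB (fun r v y d => fillB F k cap l r v y d) cap a u w m rem vol key c

theorem goB_complete {next : ℕ → ℕ → ℕ → List ℕ → Bool} {cap a u w : ℕ} :
    ∀ {n rem vol key : ℕ} {c : List ℕ} (i j : ℕ), i + j = n → i * a ≤ rem →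
      vol + j * u ≤ cap →
      next (rem - i * a) (vol + j * u) (key + j * w) (List.replicate i a ++ c) = true →
      goB next cap a u w n rem vol key c = true
  | 0, rem, vol, key, c, i, j, hij, h1, h2, h3 => by
    have hi : i = 0 := by omega
    have hj : j = 0 := by omega
    subst hi; subst hj
    rw [goB]
    simpa using h3
  | n + 1, rem, vol, key, c, i, j, hij, h1, h2, h3 => by
    rw [goB, Bool.or_eq_true, Bool.and_eq_true, Bool.and_eq_true]
    cases i with
    | zero =>
      right
      have hj : j = n + 1 := by omega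
      subst hj
      refine ⟨by rw [Nat.ble_eq]; exact h2, ?_⟩
      simpa using h3
    | succ i =>
      left
      have e1 : (i + 1) * a = i * a + a := by ring
      refine ⟨by rw [Nat.ble_eq]; omega, ?_⟩
      refine goB_complete i j (by omega) (by omega) h2 ?_
      have e2 : rem - a - i * a = rem - (i + 1) * a := by omega
      have e3 : List.replicate (i + 1) a ++ c = List.replicate i a ++ a :: c := by
        rw [List.replicate_succ', List.append_assoc]; rfl
      rw [e2, ← e3]
      exact h3

/-- weights and keys of the blocks are given by functions of the size -/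
def Agree (κ W : ℕ → ℕ) (l : List (ℕ × ℕ × ℕ × ℕ)) : Prop :=
  ∀ x ∈ l, κ x.1 = x.2.2.1 ∧ W x.1 = x.2.1

theorem mem_tot : ∀ {l : List (ℕ × ℕ × ℕ × ℕ)} {a : ℕ}, a ∈ tot l → ∃ x ∈ l, x.1 = a
  | [], a, h => by simp [tot] at h
  | (b, u, w, c) :: l, a, h => by
    rw [tot, Multiset.mem_add] at h
    rcases h with h | h
    · exact ⟨_, List.mem_cons_self, (Multiset.eq_of_mem_replicate h).symm⟩
    · obtain ⟨x, hx, hxa⟩ := mem_tot h
      exact ⟨x, List.mem_cons_of_mem _ hx, hxa⟩

theorem split_replicate (b : Multiset ℕ) (a : ℕ) :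
    b = Multiset.replicate (b.count a) a + b.filter (fun x => ¬ x = a) := by
  rw [← Multiset.filter_eq']
  exact (Multiset.filter_add_not _ _).symm

theorem filter_ne_eq_self {s : Multiset ℕ} {a : ℕ} (h : a ∉ s) :
    s.filter (fun x => ¬ x = a) = s := by
  rw [Multiset.filter_eq_self]
  intro x hx hxa
  exact h (hxa ▸ hx)

theorem filter_ne_replicate (c a : ℕ) :
    (Multiset.replicate c a).filter (fun x => ¬ x = a) = 0 := by
  rw [Multiset.filter_eq_nil]
  intro x hx
  simp [Multiset.eq_of_mem_replicate hx]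

theorem fillB_complete {F : List (List ℕ)} {k : ℕ → Bool} {cap : ℕ} {κ W : ℕ → ℕ} :
    ∀ {l : List (ℕ × ℕ × ℕ × ℕ)} {rem vol key : ℕ} {c : List ℕ} {b r : Multiset ℕ},
      Agree κ W l → (l.map Prod.fst).Nodup → b + r = tot l → b.sum ≤ rem →
      vol + (r.map W).sum ≤ cap → k (key + (r.map κ).sum) = true →
      (∀ p ∈ F, (c : Multiset ℕ) + b ≠ (p : Multiset ℕ)) → fillB F k cap l rem vol key c = true
  | [], rem, vol, key, c, b, r, _, _, h, _, _, h3, h4 => by
    rw [tot, add_eq_zero] at h
    obtain ⟨rfl, rfl⟩ := h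
    rw [fillB, Bool.and_eq_true]
    refine ⟨by simpa using h3, ?_⟩
    rw [Bool.not_eq_true', ← Bool.not_eq_true]
    intro h5
    exact h4 c (memL_mem h5) (by simp)
  | (a, u, w, m) :: l, rem, vol, key, c, b, r, hA, hN, h, h1, h2, h3, h4 => by
    have hal : a ∉ tot l := by
      intro ha
      obtain ⟨x, hx, hxa⟩ := mem_tot ha
      rw [List.map_cons, List.nodup_cons] at hN
      exact hN.1 (List.mem_map.2 ⟨x, hx, hxa⟩)
    rw [tot] at h
    have hcount : b.count a + r.count a = m := by
      have := congrArg (Multiset.count a) h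
      rw [Multiset.count_add, Multiset.count_add, Multiset.count_replicate_self,
        Multiset.count_eq_zero_of_notMem hal] at this
      simpa using this
    have hfil : b.filter (fun x => ¬ x = a) + r.filter (fun x => ¬ x = a) = tot l := by
      have := congrArg (Multiset.filter (fun x => ¬ x = a)) h
      rw [Multiset.filter_add, Multiset.filter_add, filter_ne_replicate, filter_ne_eq_self hal,
        zero_add] at this
      exact this
    have hb := split_replicate b a
    have hr := split_replicate r a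
    obtain ⟨hκ, hW⟩ := hA _ List.mem_cons_self
    simp only at hκ hW
    have eb : b.sum = b.count a * a + (b.filter (fun x => ¬ x = a)).sum := by
      conv_lhs => rw [hb]
      rw [Multiset.sum_add, Multiset.sum_replicate, smul_eq_mul]
    have erW : (r.map W).sum = r.count a * u + ((r.filter (fun x => ¬ x = a)).map W).sum := by
      conv_lhs => rw [hr]
      rw [Multiset.map_add, Multiset.sum_add, Multiset.map_replicate, Multiset.sum_replicate,
        smul_eq_mul, hW]
    have erκ : (r.map κ).sum = r.count a * w + ((r.filter (fun x => ¬ x = a)).map κ).sum := by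
      conv_lhs => rw [hr]
      rw [Multiset.map_add, Multiset.sum_add, Multiset.map_replicate, Multiset.sum_replicate,
        smul_eq_mul, hκ]
    rw [fillB]
    refine goB_complete (b.count a) (r.count a) hcount (by omega) (by omega) ?_
    refine fillB_complete (fun x hx => hA x (List.mem_cons_of_mem _ hx)) ?_ hfil (by omega)
      (by omega) ?_ ?_
    · rw [List.map_cons, List.nodup_cons] at hN
      exact hN.2
    · rw [← h3]
      congr 1
      omega
    · intro p hp h5
      apply h4 p hp
      rw [← h5, hb]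
      have e : ((List.replicate (Multiset.count a b) a ++ c : List ℕ) : Multiset ℕ) =
          Multiset.replicate (Multiset.count a b) a + (c : Multiset ℕ) := by
        rw [← Multiset.coe_add, Multiset.coe_replicate]
      rw [← hb, e, add_comm (Multiset.replicate _ _) (c : Multiset ℕ), add_assoc, ← hb]

/-- the blocks with given key -/
def selB : List (ℕ × ℕ × ℕ × ℕ) → ℕ → List (ℕ × ℕ × ℕ × ℕ)
  | [], _ => []
  | (a, u, w, _) :: l, key =>
    bif Nat.beq (key / w) 0 then selB l key
    else (a, u, w, key / w) :: selB l (key - key / w * w)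

/-- the keys are superincreasing and the sizes are distinct -/
def superB : List (ℕ × ℕ × ℕ × ℕ) → Bool
  | [] => true
  | (a, _, w, _) :: l => Nat.blt (l.map (fun x => x.2.2.2 * x.2.2.1)).sum w &&
      (l.all (fun x => !(Nat.beq x.1 a)) && superB l)

theorem superB_nodup : ∀ {l : List (ℕ × ℕ × ℕ × ℕ)}, superB l = true → (l.map Prod.fst).Nodup
  | [], _ => List.nodup_nil
  | (a, u, w, c) :: l, h => by
    rw [superB, Bool.and_eq_true, Bool.and_eq_true, List.all_eq_true] at h
    rw [List.map_cons, List.nodup_cons]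
    refine ⟨?_, superB_nodup h.2.2⟩
    intro hm
    rw [List.mem_map] at hm
    obtain ⟨x, hx, hxa⟩ := hm
    have h1 := h.2.1 x hx
    simp only at hxa
    rw [hxa] at h1
    have h2 : Nat.beq a a = true := Nat.beq_refl _
    rw [h2] at h1
    simp at h1

theorem key_le {κ W : ℕ → ℕ} : ∀ {l : List (ℕ × ℕ × ℕ × ℕ)}, Agree κ W l →
    ((tot l).map κ).sum = (l.map (fun x => x.2.2.2 * x.2.2.1)).sum
  | [], _ => by simp [tot]
  | (a, u, w, c) :: l, hA => by
    rw [tot, Multiset.map_add, Multiset.sum_add, Multiset.map_replicate, Multiset.sum_replicate,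
      smul_eq_mul, (hA _ List.mem_cons_self).1, key_le (fun x hx => hA x (List.mem_cons_of_mem _ hx)),
      List.map_cons, List.sum_cons]

theorem selB_sub {κ W : ℕ → ℕ} : ∀ {l : List (ℕ × ℕ × ℕ × ℕ)} {key : ℕ}, Agree κ W l →
    (l.map Prod.fst).Nodup → Agree κ W (selB l key) ∧ ((selB l key).map Prod.fst).Nodup ∧
      ∀ x ∈ (selB l key).map Prod.fst, x ∈ l.map Prod.fst
  | [], key, _, _ => ⟨fun x hx => by simp [selB] at hx, by simp [selB], by simp [selB]⟩
  | (a, u, w, c) :: l, key, hA, hN => by
    rw [List.map_cons, List.nodup_cons] at hN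
    have hA' : Agree κ W l := fun x hx => hA x (List.mem_cons_of_mem _ hx)
    rw [selB]
    cases hq : Nat.beq (key / w) 0
    · rw [cond_false]
      obtain ⟨h1, h2, h3⟩ := selB_sub (key := key - key / w * w) hA' hN.2
      refine ⟨?_, ?_, ?_⟩
      · intro x hx
        rw [List.mem_cons] at hx
        rcases hx with rfl | hx
        · exact hA (a, u, w, c) List.mem_cons_self
        · exact h1 x hx
      · rw [List.map_cons, List.nodup_cons]
        exact ⟨fun hm => hN.1 (h3 _ hm), h2⟩
      · intro x hx
        rw [List.map_cons, List.mem_cons] at hx ⊢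
        rcases hx with rfl | hx
        · left; rfl
        · right; exact h3 x hx
    · rw [cond_true]
      obtain ⟨h1, h2, h3⟩ := selB_sub (key := key) hA' hN.2
      exact ⟨h1, h2, fun x hx => List.mem_cons_of_mem _ (h3 x hx)⟩

theorem selB_tot {κ W : ℕ → ℕ} : ∀ {l : List (ℕ × ℕ × ℕ × ℕ)} {r : Multiset ℕ}, Agree κ W l →
    superB l = true → r ≤ tot l → tot (selB l (r.map κ).sum) = r
  | [], r, _, _, hr => by
    rw [tot, Multiset.le_zero] at hr
    rw [hr]; rfl
  | (a, u, w, c) :: l, r, hA, hs, hr => by
    have hN := superB_nodup hs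
    rw [List.map_cons, List.nodup_cons] at hN
    have hA' : Agree κ W l := fun x hx => hA x (List.mem_cons_of_mem _ hx)
    rw [superB, Bool.and_eq_true, Bool.and_eq_true] at hs
    have hw : (l.map (fun x => x.2.2.2 * x.2.2.1)).sum < w := by
      have := hs.1
      rw [Nat.blt, Nat.ble_eq] at this
      exact this
    have hal : a ∉ tot l := by
      intro ha
      obtain ⟨x, hx, hxa⟩ := mem_tot ha
      exact hN.1 (List.mem_map.2 ⟨x, hx, hxa⟩)
    set r' := r.filter (fun x => ¬ x = a) with hr'
    have hle : r' ≤ tot l := by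
      have := Multiset.filter_le_filter (fun x => ¬ x = a) hr
      rw [tot, Multiset.filter_add, filter_ne_replicate, filter_ne_eq_self hal, zero_add] at this
      exact this
    have hsp := split_replicate r a
    rw [← hr'] at hsp
    have hk : (r.map κ).sum = r.count a * w + (r'.map κ).sum := by
      conv_lhs => rw [hsp]
      rw [Multiset.map_add, Multiset.sum_add, Multiset.map_replicate, Multiset.sum_replicate,
        smul_eq_mul, (hA _ List.mem_cons_self).1]
    have hlt : (r'.map κ).sum < w := by
      refine lt_of_le_of_lt ?_ hw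
      rw [← key_le hA']
      obtain ⟨t, ht⟩ := Multiset.le_iff_exists_add.1 hle
      rw [ht, Multiset.map_add, Multiset.sum_add]
      exact Nat.le_add_right _ _
    have hq : (r.map κ).sum / w = r.count a := by
      rw [hk, add_comm, Nat.add_mul_div_right _ _ (by omega), Nat.div_eq_of_lt hlt, zero_add]
    rw [selB, hq]
    cases hz : Nat.beq (r.count a) 0
    · rw [cond_false, tot]
      have e : (r.map κ).sum - r.count a * w = (r'.map κ).sum := by omega
      rw [e, selB_tot hA' hs.2.2 hle]
      exact hsp.symm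
    · have h0 : r.count a = 0 := Nat.eq_of_beq_eq_true hz
      have h1 : r' = r := by
        rw [h0] at hsp
        simpa using hsp.symm
      rw [cond_true, ← h1, selB_tot hA' hs.2.2 hle]

/-- the items of the blocks are refuted for `n + 1` bins by the table `T` for `n` bins -/
def refuteB (F : List (List ℕ)) (L D : ℕ) (T : Tr) (n : ℕ) : List (ℕ × ℕ × ℕ × ℕ) → Bool
  | [] => false
  | (_, _, _, 0) :: _ => false
  | (a, u, w, c + 1) :: l => !(fillB F (fun k => !(T.mem k)) (n * D) ((a, u, w, c) :: l)
      (L - a) 0 0 [a])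

/-- check of the tables, for `Ts.length, …, 2, 1` bins -/
def checkTabsB (F : List (List ℕ)) (L D : ℕ) (items : List (ℕ × ℕ × ℕ × ℕ)) : List Tr → Bool
  | [] => true
  | [T] => T.all (fun key => refuteB F L D .nil 0 (selB items key))
  | T :: T' :: Ts => checkTabsB F L D items (T' :: Ts) &&
      T.all (fun key => refuteB F L D T' (T' :: Ts).length (selB items key))

/-- key of a size -/
def lookK : List (ℕ × ℕ × ℕ × ℕ) → ℕ → ℕ
  | [], _ => 0
  | (t, _, w, _) :: cs, a => bif Nat.beq t a then w else lookK cs a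

/-- the complete check -/
def checkB (F : List (List ℕ)) (L D : ℕ) (W : ℕ → ℕ) (items : List (ℕ × ℕ × ℕ × ℕ)) :
    List Tr → Bool
  | [] => false
  | T :: Ts => superB items && (items.all (fun x => Nat.beq (W x.1) x.2.1) &&
      (items.all (fun x => Nat.beq (lookK items x.1) x.2.2.1) &&
      (checkTabsB F L D items (T :: Ts) && refuteB F L D T (T :: Ts).length items)))

theorem refuteB_sound {F : List (List ℕ)} {L D n : ℕ} {T : Tr} {κ W : ℕ → ℕ}
    {items l : List (ℕ × ℕ × ℕ × ℕ)} (hA : Agree κ W l) (hN : (l.map Prod.fst).Nodup)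
    (hT : ∀ r : Multiset ℕ, r ≤ tot items → T.mem (r.map κ).sum = true → ¬ PkW L F W D n r)
    (hl : tot l ≤ tot items) (h : refuteB F L D T n l = true) :
    ¬ PkW L F W D (n + 1) (tot l) := by
  intro hP
  cases l with
  | nil => simp [refuteB] at h
  | cons x l =>
    obtain ⟨a, u, w, c⟩ := x
    cases c with
    | zero => simp [refuteB] at h
    | succ c =>
      have e : tot ((a, u, w, c + 1) :: l) = a ::ₘ tot ((a, u, w, c) :: l) := by
        rw [tot, tot, Multiset.replicate_succ, Multiset.cons_add]
      rw [e] at hP hl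
      obtain ⟨m, b, hm, h1, h2, h3, h4⟩ := hP.step
      have hm' : n = m := by omega
      subst hm'
      have hA' : Agree κ W ((a, u, w, c) :: l) := by
        intro x hx
        rw [List.mem_cons] at hx
        rcases hx with rfl | hx
        · exact hA (a, u, w, c + 1) List.mem_cons_self
        · exact hA x (List.mem_cons_of_mem _ hx)
      have hsub : tot ((a, u, w, c) :: l) - b ≤ tot items :=
        (tsub_le_self).trans ((Multiset.le_cons_self _ _).trans hl)
      have h8 : T.mem ((tot ((a, u, w, c) :: l) - b).map κ).sum = false := by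
        rw [← Bool.not_eq_true]
        intro h9
        exact hT _ hsub h9 h4
      have h12 := fillB_complete (F := F) (k := fun k => !(T.mem k)) (cap := n * D) (κ := κ)
        (W := W) (l := (a, u, w, c) :: l) (rem := L - a) (vol := 0) (key := 0) (c := [a])
        (b := b) (r := tot ((a, u, w, c) :: l) - b) hA' hN (add_tsub_cancel_of_le h1)
        (by omega) (by rw [zero_add]; exact h4.vol) (by rw [zero_add, h8]; rfl) (by
          intro p hp h13
          apply h3 p hp
          rw [← h13]
          rfl)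
      rw [refuteB, h12] at h
      exact absurd h (by simp)

theorem checkTabsB_sound {F : List (List ℕ)} {L D : ℕ} {κ W : ℕ → ℕ}
    {items : List (ℕ × ℕ × ℕ × ℕ)} (hA : Agree κ W items) (hs : superB items = true) :
    ∀ {T : Tr} {Ts : List Tr}, checkTabsB F L D items (T :: Ts) = true →
      ∀ r : Multiset ℕ, r ≤ tot items → T.mem (r.map κ).sum = true →
        ¬ PkW L F W D (T :: Ts).length r
  | T, [], h, r, hr, hm => by
    rw [checkTabsB] at h
    have h1 := Tr.all_mem h hm
    obtain ⟨h2, h3, _⟩ := selB_sub (key := (r.map κ).sum) hA (superB_nodup hs)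
    have h4 := selB_tot hA hs hr
    have h5 := refuteB_sound (items := items) h2 h3 (T := .nil) (n := 0)
      (fun r _ h2 => by simp [Tr.mem] at h2) (by rw [h4]; exact hr) h1
    rwa [h4] at h5
  | T, T' :: Ts, h, r, hr, hm => by
    rw [checkTabsB, Bool.and_eq_true] at h
    have h1 := Tr.all_mem h.2 hm
    obtain ⟨h2, h3, _⟩ := selB_sub (key := (r.map κ).sum) hA (superB_nodup hs)
    have h4 := selB_tot hA hs hr
    have h5 := refuteB_sound (items := items) h2 h3 (checkTabsB_sound hA hs h.1)
      (by rw [h4]; exact hr) h1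
    rwa [h4] at h5

theorem checkB_sound {F : List (List ℕ)} {L D : ℕ} {W : ℕ → ℕ} {items : List (ℕ × ℕ × ℕ × ℕ)}
    {T : Tr} {Ts : List Tr} (h : checkB F L D W items (T :: Ts) = true) :
    ¬ PkW L F W D ((T :: Ts).length + 1) (tot items) := by
  rw [checkB, Bool.and_eq_true, Bool.and_eq_true, Bool.and_eq_true, Bool.and_eq_true,
    List.all_eq_true, List.all_eq_true] at h
  obtain ⟨h1, h2, h3, h4, h5⟩ := h
  have hA : Agree (lookK items) W items := fun x hx =>
    ⟨Nat.eq_of_beq_eq_true (h3 x hx), Nat.eq_of_beq_eq_true (h2 x hx)⟩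
  exact refuteB_sound hA (superB_nodup h1) (checkTabsB_sound hA h1 h4) le_rfl h5

/-! ### main theorem with cases -/

/-- total excess weight of the pure bins -/
def dotE (G : List (List ℕ × ℕ × ℕ)) (us : List ℕ) : ℕ :=
  (List.zipWith (fun g u => g.2.2 * u) G us).sum

/-- the items in the pure bins -/
def pureS : List (List ℕ × ℕ × ℕ) → List ℕ → List ℕ
  | [], _ => []
  | _ :: _, [] => []
  | g :: G, u :: us => (List.replicate u g.1).flatten ++ pureS G us

/-- all lists `us` with `us i < G i` -/
def allU : List (List ℕ × ℕ × ℕ) → (List ℕ → Bool) → Bool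
  | [], p => p []
  | g :: G, p => (List.range g.2.1).all (fun u => allU G (fun us => p (u :: us)))

theorem allU_sound : ∀ {G : List (List ℕ × ℕ × ℕ)} {p : List ℕ → Bool}
    {f : List ℕ × ℕ × ℕ → ℕ}, allU G p = true → (∀ g ∈ G, f g < g.2.1) → p (G.map f) = true
  | [], p, f, h, _ => h
  | g :: G, p, f, h, hf => by
    rw [allU, List.all_eq_true] at h
    have h1 := h (f g) (List.mem_range.2 (hf g List.mem_cons_self))
    exact allU_sound (G := G) (p := fun us => p (f g :: us)) (f := f) h1
      (fun x hx => hf x (List.mem_cons_of_mem _ hx))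

theorem dotE_map : ∀ (G : List (List ℕ × ℕ × ℕ)) (f : List ℕ × ℕ × ℕ → ℕ),
    dotE G (G.map f) = (G.map (fun g => g.2.2 * f g)).sum
  | [], f => rfl
  | g :: G, f => by
    have := dotE_map G f
    rw [dotE] at this ⊢
    rw [List.map_cons, List.zipWith_cons_cons, List.sum_cons, this, List.map_cons, List.sum_cons]

theorem pureS_map : ∀ (G : List (List ℕ × ℕ × ℕ)) (f : List ℕ × ℕ × ℕ → ℕ),
    ((pureS G (G.map f) : List ℕ) : Multiset ℕ) =
      (G.map (fun g => (f g) • (g.1 : Multiset ℕ))).sum
  | [], _ => rfl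
  | g :: G, f => by
    rw [List.map_cons, pureS, ← Multiset.coe_add, pureS_map G f, List.map_cons, List.sum_cons]
    congr 1
    generalize f g = k
    induction k with
    | zero => simp
    | succ k ih =>
      rw [List.replicate_succ, List.flatten_cons, ← Multiset.coe_add, ih, succ_nsmul, add_comm]

theorem master2 {L n D : ℕ} (hL : 0 < L) {s : List ℕ} (ρ w : ℕ → ℕ)
    (G : List (List ℕ × ℕ × ℕ))
    (hρ : ∀ a ∈ s, ρ a ≤ a)
    (hnd : (G.map (fun g => (g.1 : Multiset ℕ))).Nodup)
    (hw : ∀ b : Multiset ℕ, (∀ t ∈ b, ∃ a ∈ s, ρ a = t) → b.sum ≤ L →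
      (b.map w).sum ≤ D + (G.map (fun g => if b = (g.1 : Multiset ℕ) then g.2.2 else 0)).sum)
    (hlen : ∀ g ∈ G, (s.filter (fun a => decide (ρ a ∈ g.1))).length = g.2.1 * g.1.length)
    (hgad : ∀ g ∈ G, ¬ Pk L [] g.2.1
      ((s.filter (fun a => decide (ρ a ∈ g.1)) : List ℕ) : Multiset ℕ))
    (hus : ∀ f : List ℕ × ℕ × ℕ → ℕ, (∀ g ∈ G, f g < g.2.1) →
      D * n + dotE G (G.map f) < (s.map (fun a => w (ρ a))).sum ∨
      ∃ (rest : Multiset ℕ) (n' : ℕ), ((s.map ρ : List ℕ) : Multiset ℕ) =
        rest + (pureS G (G.map f) : Multiset ℕ) ∧ n = n' + (G.map f).sum ∧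
        ¬ PkW L (G.map Prod.fst) w D n' rest) :
    ¬ Packable (inst L s) n := by
  intro hp
  obtain ⟨f, hf⟩ := nat_of_packable hL hp
  set B : Multiset (Multiset ℕ) := univ.val.map (binM f (fun i => ρ (s.get i))) with hB
  have hBc : B.card = n := by
    rw [hB, Multiset.card_map]; simp
  have hBs : B.sum = ((s.map ρ : List ℕ) : Multiset ℕ) := by
    have h1 := sum_bins f (fun i => ρ (s.get i)) univ
    rw [Finset.sum_eq_multiset_sum] at h1
    rw [hB, h1]
    have h2 : (univ.filter (fun i => f i ∈ (univ : Finset (Fin n)))) = univ := by simp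
    rw [h2]
    have h3 : (univ : Finset (Fin s.length)).val = (List.finRange s.length : Multiset _) := rfl
    rw [h3, Multiset.map_coe]
    congr 1
    conv_rhs => rw [← List.map_get_finRange s]
    rw [List.map_map]
    rfl
  have hBL : ∀ b ∈ B, b.sum ≤ L := by
    intro b hb
    rw [hB, Multiset.mem_map] at hb
    obtain ⟨j, _, rfl⟩ := hb
    rw [binM_sum]
    refine le_trans (Finset.sum_le_sum fun i _ => hρ _ (List.get_mem _ _)) (hf j)
  have hBm : ∀ b ∈ B, ∀ t ∈ b, ∃ a ∈ s, ρ a = t := by
    intro b hb t ht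
    rw [hB, Multiset.mem_map] at hb
    obtain ⟨j, _, rfl⟩ := hb
    rw [binM, Multiset.mem_map] at ht
    obtain ⟨i, _, rfl⟩ := ht
    exact ⟨_, List.get_mem _ _, rfl⟩
  have hcount : ∀ g ∈ G, B.count (g.1 : Multiset ℕ) < g.2.1 := fun g hg =>
    count_le hf ρ (hlen g hg) (hgad g hg)
  have hwt : (B.map (fun b => (b.map w).sum)).sum = (s.map (fun a => w (ρ a))).sum := by
    have h1 : ∀ B : Multiset (Multiset ℕ), (B.map (fun b => (b.map w).sum)).sum =
        (B.sum.map w).sum := by
      intro B
      induction B using Multiset.induction with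
      | empty => simp
      | cons b B ih => simp [ih]
    rw [h1, hBs, Multiset.map_coe, Multiset.sum_coe, List.map_map]
    rfl
  rcases hus (fun g => B.count (g.1 : Multiset ℕ)) hcount with h | ⟨rest, n', h1, h2, h3⟩
  · have hws := weight_sum (fun b => (b.map w).sum) D G B
      (fun b hb => hw b (hBm b hb) (hBL b hb))
    rw [hwt, hBc] at hws
    rw [dotE_map] at h
    omega
  · apply h3
    set P := G.map (fun g => (g.1 : Multiset ℕ)) with hP
    have h4 := filter_mem_eq B P hnd
    have h5 : B.filter (fun b => b ∈ P) + B.filter (fun b => b ∉ P) = B :=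
      Multiset.filter_add_not _ _
    have h6 : ∀ G' : List (List ℕ × ℕ × ℕ), ((G'.map (fun g => (g.1 : Multiset ℕ))).map
        (fun p => Multiset.replicate (B.count p) p)).sum.card =
          (G'.map (fun g => B.count (g.1 : Multiset ℕ))).sum := by
      intro G'
      induction G' with
      | nil => simp
      | cons g G' ih =>
        rw [List.map_cons, List.map_cons, List.sum_cons, Multiset.card_add, ih, List.map_cons,
          List.sum_cons, Multiset.card_replicate]
    have h7 : ∀ G' : List (List ℕ × ℕ × ℕ), ((G'.map (fun g => (g.1 : Multiset ℕ))).map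
        (fun p => Multiset.replicate (B.count p) p)).sum.sum =
          (G'.map (fun g => B.count (g.1 : Multiset ℕ) • (g.1 : Multiset ℕ))).sum := by
      intro G'
      induction G' with
      | nil => simp
      | cons g G' ih =>
        rw [List.map_cons, List.map_cons, List.sum_cons, Multiset.sum_add, ih, List.map_cons,
          List.sum_cons, Multiset.sum_replicate]
    refine ⟨B.filter (fun b => b ∉ P), ?_, ?_, ?_⟩
    · have h8 := congrArg Multiset.card h5
      have h9 : (B.filter (fun b => b ∈ P)).card =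
          (G.map (fun g => B.count (g.1 : Multiset ℕ))).sum := by rw [h4, hP]; exact h6 G
      rw [Multiset.card_add, h9, hBc, h2] at h8
      omega
    · have h8 := congrArg Multiset.sum h5
      have h9 : (B.filter (fun b => b ∈ P)).sum =
          (G.map (fun g => B.count (g.1 : Multiset ℕ) • (g.1 : Multiset ℕ))).sum := by
        rw [h4, hP]; exact h7 G
      rw [Multiset.sum_add, h9, hBs, h1, pureS_map, add_comm] at h8
      exact add_right_cancel h8
    · intro b hb
      rw [Multiset.mem_filter] at hb
      refine ⟨hBL b hb.1, ?_, ?_⟩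
      · intro p hp h7
        apply hb.2
        rw [List.mem_map] at hp
        obtain ⟨g, hg, rfl⟩ := hp
        rw [hP, List.mem_map]
        exact ⟨g, hg, h7.symm⟩
      · have h9 := hw b (hBm b hb.1) (hBL b hb.1)
        have h10 : (G.map (fun g => if b = (g.1 : Multiset ℕ) then g.2.2 else 0)).sum = 0 := by
          rw [List.sum_eq_zero_iff]
          intro x hx
          rw [List.mem_map] at hx
          obtain ⟨g, hg, rfl⟩ := hx
          rw [if_neg]
          intro h11
          apply hb.2
          rw [hP, List.mem_map]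
          exact ⟨g, hg, h11.symm⟩
        omega

/-- the case `us` is settled by a search -/
def Settled (L n D : ℕ) (s : List ℕ) (ρ w : ℕ → ℕ) (G : List (List ℕ × ℕ × ℕ))
    (us : List ℕ) : Prop :=
  ∃ (rest : Multiset ℕ) (n' : ℕ), ((s.map ρ : List ℕ) : Multiset ℕ) =
    rest + (pureS G us : Multiset ℕ) ∧ n = n' + us.sum ∧ ¬ PkW L (G.map Prod.fst) w D n' rest

/-- the items of the blocks as a list -/
def totL : List (ℕ × ℕ × ℕ × ℕ) → List ℕ
  | [] => []
  | (a, _, _, c) :: l => List.replicate c a ++ totL l

theorem totL_eq : ∀ l : List (ℕ × ℕ × ℕ × ℕ), ((totL l : List ℕ) : Multiset ℕ) = tot l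
  | [] => rfl
  | (a, u, w, c) :: l => by
    rw [totL, tot, ← Multiset.coe_add, Multiset.coe_replicate, totL_eq l]

theorem settled_of_check {L n D : ℕ} {s : List ℕ} {ρ w : ℕ → ℕ} {G : List (List ℕ × ℕ × ℕ)}
    {us : List ℕ} {items : List (ℕ × ℕ × ℕ × ℕ)} {T : Tr} {Ts : List Tr}
    (h : checkB (G.map Prod.fst) L D w items (T :: Ts) = true)
    (h1 : samePerm (s.map ρ) (totL items ++ pureS G us) = true)
    (h2 : n = ((T :: Ts).length + 1) + us.sum) : Settled L n D s ρ w G us := by
  refine ⟨tot items, (T :: Ts).length + 1, ?_, h2, checkB_sound h⟩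
  rw [← totL_eq, Multiset.coe_add]
  exact samePerm_eq h1

theorem master_check2 {L n D fuel : ℕ} (hL : 0 < L) {s ts : List ℕ} {cs : List (ℕ × ℕ)}
    {P : List (List ℕ × ℕ)} {G : List (List ℕ × ℕ × ℕ)} {cases : List (List ℕ)}
    (h1 : s.all (fun a => cs.any (fun p => Nat.beq p.1 (rnd ts a))) = true)
    (h2 : distinctPats G = true)
    (h3 : enumW D P fuel cs L 0 [] = true) (h4 : densW cs = true)
    (h5 : cs.all (fun p => Nat.beq (look cs p.1) p.2) = true)
    (h6 : P.all (fun q => G.any (fun g => samePerm q.1 g.1 && Nat.ble q.2 g.2.2)) = true)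
    (h7 : G.all (fun g => Nat.beq (s.filter (fun a => decide (rnd ts a ∈ g.1))).length
      (g.2.1 * g.1.length)) = true)
    (hgad : ∀ g ∈ G, ¬ Pk L [] g.2.1
      ((s.filter (fun a => decide (rnd ts a ∈ g.1)) : List ℕ) : Multiset ℕ))
    (h8 : allU G (fun us => Nat.blt (D * n + dotE G us)
      (s.map (fun a => look cs (rnd ts a))).sum || memL us cases) = true)
    (hcases : ∀ us ∈ cases, Settled L n D s (rnd ts) (look cs) G us) :
    ¬ Packable (inst L s) n := by
  rw [List.all_eq_true] at h1 h5 h6 h7
  refine master2 hL (rnd ts) (look cs) G (fun a _ => rnd_le ts a) (distinctPats_nodup h2)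
    ?_ ?_ hgad ?_ (D := D)
  · intro b hb hbL
    have h10 := enumW_sound (W := look cs) h3 h4
      (fun p hp => Nat.eq_of_beq_eq_true (h5 p hp)) b (by
        intro x hx
        obtain ⟨a, ha, rfl⟩ := hb x hx
        have h11 := h1 a ha
        rw [List.any_eq_true] at h11
        obtain ⟨p, hp, hpa⟩ := h11
        exact ⟨p, hp, Nat.eq_of_beq_eq_true hpa⟩) hbL
    rw [zero_add] at h10
    rcases h10 with h10 | ⟨q, hq, hqb, hqw⟩
    · exact h10.trans (Nat.le_add_right _ _)
    · have h12 := h6 q hq
      rw [List.any_eq_true] at h12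
      obtain ⟨g, hg, h13⟩ := h12
      rw [Bool.and_eq_true, Nat.ble_eq] at h13
      have h14 : b = (g.1 : Multiset ℕ) := by
        rw [← samePerm_eq h13.1, ← hqb]
        simp
      exact hqw.trans (Nat.add_le_add_left (h13.2.trans (le_ite_sum hg h14)) _)
  · intro g hg
    exact Nat.eq_of_beq_eq_true (h7 g hg)
  · intro f hf
    have h9 := allU_sound h8 hf
    rw [Bool.or_eq_true] at h9
    rcases h9 with h9 | h9
    · left
      rw [Nat.blt, Nat.ble_eq] at h9
      exact h9
    · right
      exact hcases _ (memL_mem h9)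

end Vale.Agent.P302
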